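import Vale.Agent.P281.H83.HK.Defs
import Vale.Agent.P281.H624.TS.Form

/-!
# P281, project T-HK (helper624): 1-forms and 2-forms on `ℂ^d`, potentials
-/

open Set Filter Metric MeasureTheory Vale.Agent.P272.K
open scoped Topology ContDiff ComplexConjugate ComplexOrder

noncomputable section

namespace Vale.Agent.P281.H624.HK

open Vale.Agent.P281.H64.TK Vale.Agent.P281.H64.TK.TS Vale.Agent.P272.K.C2
open Vale.Agent.P281.H83.HK Vale.Agent.P281.H624.TS

variable {d : ℕ}

theorem tf_apply (m : Matrix (Fin d) (Fin d) ℂ) (u v : Cm d) :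
    tf m u v = ∑ j, ∑ k, m j k * (u j * v k) := rfl

theorem cj_apply (a : L2 d) (u v : Cm d) : cj a u v = conj (a u v) := rfl

theorem kf_apply (w : Matrix (Fin d) (Fin d) ℂ) (u v : Cm d) :
    kf w u v = Complex.I / 2 * ∑ j, ∑ k, w j k * (u j * conj (v k) - v j * conj (u k)) := rfl

theorem rb0 (k : Fin d) : rb (k, 0) = Pi.single k 1 := rfl
theorem rb1 (k : Fin d) : rb (k, 1) = Pi.single k Complex.I := rfl

/-- `Df(u) = Σ ∂_j f u_j + ∂̄_j f conj u_j`. -/
theorem fd_wirt {n : ℕ} (f : Cm n → ℂ) (z u : Cm n) :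
    fderiv ℝ f z u = ∑ j, (dz j f z * u j + dzb j f z * conj (u j)) := by
  have h : u = ∑ j, ((u j).re • (Pi.single j (1 : ℂ) : Cm n) +
      (u j).im • (Pi.single j Complex.I : Cm n)) := by
    ext m
    simp only [Finset.sum_apply, Pi.add_apply, Pi.smul_apply, Pi.single_apply]
    rw [Finset.sum_eq_single m (by intro b _ hb; simp [hb.symm]) (by simp)]
    simp only [if_true, Complex.real_smul, mul_one]
    exact (Complex.re_add_im (u m)).symm
  conv_lhs => rw [h]
  rw [map_sum]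
  refine Finset.sum_congr rfl fun j _ => ?_
  rw [map_add, map_smul, map_smul]
  simp only [dz, dzb, Complex.real_smul]
  have e1 : u j = (u j).re + (u j).im * Complex.I := (Complex.re_add_im (u j)).symm
  have e2 : conj (u j) = (u j).re - (u j).im * Complex.I := by
    apply Complex.ext <;> simp
  rw [e2]
  linear_combination (-(fderiv ℝ f z (Pi.single j 1) -
    Complex.I * fderiv ℝ f z (Pi.single j Complex.I)) / 2) * e1 +
    ((u j).im * fderiv ℝ f z (Pi.single j Complex.I)) * Complex.I_sq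

/-- `∂̄f(v) = (Df(v) + i Df(iv)) / 2`. -/
theorem fd_dbar {n : ℕ} (f : Cm n → ℂ) (z v : Cm n) :
    ∑ k, dzb k f z * conj (v k) =
      (fderiv ℝ f z v + Complex.I * fderiv ℝ f z (Complex.I • v)) / 2 := by
  rw [fd_wirt f z v, fd_wirt f z (Complex.I • v), Finset.mul_sum, ← Finset.sum_add_distrib,
    Finset.sum_div]
  refine Finset.sum_congr rfl fun k _ => ?_
  simp only [Pi.smul_apply, smul_eq_mul, map_mul, Complex.conj_I]
  linear_combination (-(dz k f z * v k) / 2 + dzb k f z * conj (v k) / 2) * Complex.I_sq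

theorem fd_mulVec {θ ψ : Cm d → Cm d} {z : Cm d} (h : AnalyticAt ℂ θ z)
    (h' : ψ =ᶠ[𝓝 z] θ) (u : Cm d) : fderiv ℝ ψ z u = (jac θ z).mulVec u := by
  rw [h'.fderiv_eq, fd_real h]
  ext l
  rw [fd_jac]
  rfl

/-- The 1-form `Σ p_k dz_k + q_k dz̄_k`. -/
def of1 (p q : Fin d → ℂ) : L1 d :=
  LinearMap.toContinuousLinearMap (
    { toFun := fun v : Cm d => ∑ k, (p k * v k + q k * conj (v k))
      map_add' := by
        intro u v
        simp only [Pi.add_apply, map_add, mul_add, Finset.sum_add_distrib]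
        ring
      map_smul' := by
        intro c v
        simp only [Pi.smul_apply, Complex.real_smul, map_mul, Complex.conj_ofReal,
          RingHom.id_apply, Finset.mul_sum]
        exact Finset.sum_congr rfl fun j _ => by ring } : Cm d →ₗ[ℝ] ℂ)

theorem of1_apply (p q : Fin d → ℂ) (v : Cm d) :
    of1 p q v = ∑ k, (p k * v k + q k * conj (v k)) := rfl

theorem of1_single (p q : Fin d → ℂ) (k : Fin d) (c : ℂ) :
    of1 p q (Pi.single k c) = p k * c + q k * conj c := by
  rw [of1_apply, Finset.sum_eq_single k]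
  · simp
  · intro b _ hb
    simp [hb]
  · simp

theorem sm_of1 {p q : Cm d → Fin d → ℂ} {V : Set (Cm d)}
    (hp : ∀ k, ContDiffOn ℝ ∞ (fun y => p y k) V) (hq : ∀ k, ContDiffOn ℝ ∞ (fun y => q y k) V) :
    ContDiffOn ℝ ∞ (fun y => of1 (p y) (q y)) V := by
  refine (contDiffOn_clm_apply (𝕜 := ℝ) (D := Cm d) (E := Cm d) (F := ℂ)).2 fun v => ?_
  simp only [of1_apply]
  exact ContDiffOn.sum fun k _ => ((hp k).mul contDiffOn_const).add ((hq k).mul contDiffOn_const)

/-- Evaluation at `v`, as a continuous linear map. -/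
def ev1 (v : Cm d) : L1 d →L[ℝ] ℂ := ContinuousLinearMap.apply ℝ ℂ v

theorem fd_ev1 {β : Cm d → L1 d} {z : Cm d} (h : DifferentiableAt ℝ β z) (u v : Cm d) :
    fderiv ℝ β z u v = fderiv ℝ (fun y => β y v) z u := by
  have h0 : HasFDerivAt (fun α : L1 d => ev1 v α) (ev1 v) (β z) :=
    ContinuousLinearMap.hasFDerivAt (𝕜 := ℝ) (E := L1 d) (F := ℂ) (ev1 v)
  have h2 : HasFDerivAt (fun y => ev1 v (β y)) ((ev1 v).comp (fderiv ℝ β z)) z :=
    HasFDerivAt.comp (𝕜 := ℝ) (E := Cm d) (F := L1 d) (G := ℂ) (g := fun α => ev1 v α)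
      (f := fun z => β z) z h0 h.hasFDerivAt
  have h3 : fderiv ℝ (fun y => β y v) z = (ev1 v).comp (fderiv ℝ β z) := h2.fderiv
  rw [h3]
  rfl

theorem fd_of1 {p q : Cm d → Fin d → ℂ} {V : Set (Cm d)} {z : Cm d} (hV : IsOpen V) (hz : z ∈ V)
    (hp : ∀ k, ContDiffOn ℝ ∞ (fun y => p y k) V) (hq : ∀ k, ContDiffOn ℝ ∞ (fun y => q y k) V)
    (u v : Cm d) : fderiv ℝ (fun y => of1 (p y) (q y)) z u v =
      ∑ k, (fderiv ℝ (fun y => p y k) z u * v k + fderiv ℝ (fun y => q y k) z u * conj (v k)) := by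
  have hd : DifferentiableAt ℝ (fun y => of1 (p y) (q y)) z :=
    ((sm_of1 hp hq).contDiffAt (hV.mem_nhds hz)).differentiableAt (by simp)
  rw [fd_ev1 hd]
  have e : HasFDerivAt (fun y => of1 (p y) (q y) v) (∑ k,
      (v k • fderiv ℝ (fun y => p y k) z + conj (v k) • fderiv ℝ (fun y => q y k) z)) z := by
    simp only [of1_apply]
    refine HasFDerivAt.fun_sum fun k _ => ?_
    have a : DifferentiableAt ℝ (fun y => p y k) z :=
      ((hp k).contDiffAt (hV.mem_nhds hz)).differentiableAt (by simp)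
    have b : DifferentiableAt ℝ (fun y => q y k) z :=
      ((hq k).contDiffAt (hV.mem_nhds hz)).differentiableAt (by simp)
    exact (a.hasFDerivAt.mul_const _).add (b.hasFDerivAt.mul_const _)
  rw [e.fderiv]
  simp only [sum_apply, add_apply, smul_apply, smul_eq_mul]
  refine Finset.sum_congr rfl fun k _ => ?_
  ring

section
variable {p q : Cm d → Fin d → ℂ} {V : Set (Cm d)} {z : Cm d}

theorem fd_single (hV : IsOpen V) (hz : z ∈ V)
    (hp : ∀ k, ContDiffOn ℝ ∞ (fun y => p y k) V) (hq : ∀ k, ContDiffOn ℝ ∞ (fun y => q y k) V)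
    (u : Cm d) (k : Fin d) (c : ℂ) :
    fderiv ℝ (fun y => of1 (p y) (q y)) z u (Pi.single k c) =
      fderiv ℝ (fun y => p y k) z u * c + fderiv ℝ (fun y => q y k) z u * conj c := by
  rw [fd_of1 hV hz hp hq, Finset.sum_eq_single k]
  · simp
  · intro b _ hb
    simp [hb]
  · simp

theorem c20_d1 (hV : IsOpen V) (hz : z ∈ V) (hp : ∀ k, ContDiffOn ℝ ∞ (fun y => p y k) V)
    (hq : ∀ k, ContDiffOn ℝ ∞ (fun y => q y k) V) (j k : Fin d) :
    c20 (d1 (fun y => of1 (p y) (q y)) z) j k =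
      dz j (fun y => p y k) z - dz k (fun y => p y j) z := by
  simp only [c20, Matrix.of_apply, d1_apply, rb0, rb1, fd_single hV hz hp hq, dz, map_one,
    Complex.conj_I]
  have := Complex.I_sq
  linear_combination ((fderiv ℝ (fun y => q y k) z (Pi.single j 1) -
    fderiv ℝ (fun y => p y k) z (Pi.single j 1) - fderiv ℝ (fun y => q y j) z (Pi.single k 1) +
    fderiv ℝ (fun y => p y j) z (Pi.single k 1)) / 4) * this

theorem c02_d1 (hV : IsOpen V) (hz : z ∈ V) (hp : ∀ k, ContDiffOn ℝ ∞ (fun y => p y k) V)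
    (hq : ∀ k, ContDiffOn ℝ ∞ (fun y => q y k) V) (j k : Fin d) :
    c02 (d1 (fun y => of1 (p y) (q y)) z) j k =
      dzb j (fun y => q y k) z - dzb k (fun y => q y j) z := by
  simp only [c02, Matrix.of_apply, d1_apply, rb0, rb1, fd_single hV hz hp hq, dzb, map_one,
    Complex.conj_I]
  have := Complex.I_sq
  linear_combination ((fderiv ℝ (fun y => p y k) z (Pi.single j 1) -
    fderiv ℝ (fun y => q y k) z (Pi.single j 1) - fderiv ℝ (fun y => p y j) z (Pi.single k 1) +
    fderiv ℝ (fun y => q y j) z (Pi.single k 1)) / 4) * this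

theorem c11_d1 (hV : IsOpen V) (hz : z ∈ V) (hp : ∀ k, ContDiffOn ℝ ∞ (fun y => p y k) V)
    (hq : ∀ k, ContDiffOn ℝ ∞ (fun y => q y k) V) (j k : Fin d) :
    c11 (d1 (fun y => of1 (p y) (q y)) z) j k =
      dz j (fun y => q y k) z - dzb k (fun y => p y j) z := by
  simp only [c11, Matrix.of_apply, d1_apply, rb0, rb1, fd_single hV hz hp hq, dzb, dz, map_one,
    Complex.conj_I]
  have := Complex.I_sq
  linear_combination ((fderiv ℝ (fun y => p y k) z (Pi.single j 1) -
    fderiv ℝ (fun y => q y k) z (Pi.single j 1) + fderiv ℝ (fun y => p y j) z (Pi.single k 1) -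
    fderiv ℝ (fun y => q y j) z (Pi.single k 1)) / 4) * this

end

end Vale.Agent.P281.H624.HK
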