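import Vale.Agent.P281.H624.HK.Tools

/-!
# P281, project T-HK (helper624): the types of a 2-form
-/

open Set Filter Metric MeasureTheory Vale.Agent.P272.K
open scoped Topology ContDiff ComplexConjugate ComplexOrder

noncomputable section

namespace Vale.Agent.P281.H624.HK

open Vale.Agent.P281.H64.TK Vale.Agent.P281.H64.TK.TS Vale.Agent.P272.K.C2
open Vale.Agent.P281.H83.HK Vale.Agent.P281.H624.TS

variable {d : ℕ}

theorem vec_eq (u : Cm d) : u = ∑ j, ((u j).re • rb (j, 0) + (u j).im • rb (j, 1)) := by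
  ext m
  simp only [Finset.sum_apply, Pi.add_apply, Pi.smul_apply, rb0, rb1, Pi.single_apply]
  rw [Finset.sum_eq_single m (by intro b _ hb; simp [hb.symm]) (by simp)]
  simp only [if_true, Complex.real_smul, mul_one]
  exact (Complex.re_add_im (u m)).symm

theorem app_eq (α : L2 d) (u v : Cm d) : α u v = ∑ j, ∑ k,
    ((u j).re * ((v k).re * α (rb (j, 0)) (rb (k, 0)) + (v k).im * α (rb (j, 0)) (rb (k, 1))) +
      (u j).im * ((v k).re * α (rb (j, 1)) (rb (k, 0)) + (v k).im * α (rb (j, 1)) (rb (k, 1)))) := by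
  have h1 : ∀ u : Cm d, α u v = ∑ j, ((u j).re * α (rb (j, 0)) v + (u j).im * α (rb (j, 1)) v) := by
    intro u
    conv_lhs => rw [vec_eq u]
    rw [map_sum, sum_apply]
    refine Finset.sum_congr rfl fun j _ => ?_
    rw [map_add, map_smul, map_smul, add_apply, smul_apply, smul_apply, Complex.real_smul,
      Complex.real_smul]
  have h2 : ∀ x : Cm d, α x v = ∑ k, ((v k).re * α x (rb (k, 0)) + (v k).im * α x (rb (k, 1))) := by
    intro x
    conv_lhs => rw [vec_eq v]
    rw [map_sum]
    refine Finset.sum_congr rfl fun j _ => ?_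
    rw [map_add, map_smul, map_smul, Complex.real_smul, Complex.real_smul]
  rw [h1]
  refine Finset.sum_congr rfl fun j _ => ?_
  rw [h2, h2, Finset.mul_sum, Finset.mul_sum, ← Finset.sum_add_distrib]

/-- **The decomposition into types.** -/
theorem decomp {α : L2 d} (ha : ∀ u v, α u v = - α v u) (u v : Cm d) :
    α u v = ∑ j, ∑ k, (c20 α j k * (u j * v k) +
      c11 α j k * (u j * conj (v k) - v j * conj (u k)) +
        c02 α j k * (conj (u j) * conj (v k))) := by
  have e : ∑ j, ∑ k, (c20 α j k * (u j * v k) +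
      c11 α j k * (u j * conj (v k) - v j * conj (u k)) +
        c02 α j k * (conj (u j) * conj (v k))) = ∑ j, ∑ k, (c20 α j k * (u j * v k) +
      c11 α j k * (u j * conj (v k)) - c11 α k j * (conj (u j) * v k) +
        c02 α j k * (conj (u j) * conj (v k))) := by
    have h1 : ∑ j, ∑ k, c11 α j k * (v j * conj (u k)) =
        ∑ j, ∑ k, c11 α k j * (conj (u j) * v k) := by
      rw [Finset.sum_comm]
      exact Finset.sum_congr rfl fun j _ => Finset.sum_congr rfl fun k _ => by ring
    have h2 : ∀ A B C D : Fin d → Fin d → ℂ, (∑ j, ∑ k, B j k) = (∑ j, ∑ k, C j k) →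
        ∑ j, ∑ k, (A j k - B j k + D j k) = ∑ j, ∑ k, (A j k - C j k + D j k) := by
      intro A B C D h
      simp only [Finset.sum_add_distrib, Finset.sum_sub_distrib, h]
    have h3 := h2 (fun j k => c20 α j k * (u j * v k) + c11 α j k * (u j * conj (v k)))
      (fun j k => c11 α j k * (v j * conj (u k))) (fun j k => c11 α k j * (conj (u j) * v k))
      (fun j k => c02 α j k * (conj (u j) * conj (v k))) h1
    rw [← h3]
    exact Finset.sum_congr rfl fun j _ => Finset.sum_congr rfl fun k _ => by ring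
  rw [e, app_eq α u v]
  refine Finset.sum_congr rfl fun j _ => Finset.sum_congr rfl fun k _ => ?_
  have hu : u j = (u j).re + (u j).im * Complex.I := (Complex.re_add_im (u j)).symm
  have hv : v k = (v k).re + (v k).im * Complex.I := (Complex.re_add_im (v k)).symm
  have hu' : conj (u j) = (u j).re - (u j).im * Complex.I := by
    apply Complex.ext <;> simp
  have hv' : conj (v k) = (v k).re - (v k).im * Complex.I := by
    apply Complex.ext <;> simp
  have a1 := ha (rb (k, 0)) (rb (j, 0))
  have a2 := ha (rb (k, 1)) (rb (j, 0))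
  have a3 := ha (rb (k, 0)) (rb (j, 1))
  have a4 := ha (rb (k, 1)) (rb (j, 1))
  simp only [c20, c11, c02, Matrix.of_apply]
  rw [hu', hv', a1, a2, a3, a4]
  generalize (u j).re = x at *
  generalize (u j).im = y at *
  generalize (v k).re = s at *
  generalize (v k).im = t at *
  rw [hu, hv]
  generalize α (rb (j, 0)) (rb (k, 0)) = A
  generalize α (rb (j, 0)) (rb (k, 1)) = B
  generalize α (rb (j, 1)) (rb (k, 0)) = C
  generalize α (rb (j, 1)) (rb (k, 1)) = D
  have := Complex.I_sq
  linear_combination ((x : ℂ) * t * B + s * y * C + t * y * D) * this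

theorem tf_rb (m : Matrix (Fin d) (Fin d) ℂ) (j k : Fin d) (a b : ℂ) :
    tf m (Pi.single j a) (Pi.single k b) = m j k * (a * b) := by
  rw [tf_apply, Finset.sum_eq_single j, Finset.sum_eq_single k]
  · simp
  · intro c _ hc
    simp [hc]
  · simp
  · intro c _ hc
    simp [hc]
  · simp

theorem kf_rb (w : Matrix (Fin d) (Fin d) ℂ) (j k : Fin d) (a b : ℂ) :
    kf w (Pi.single j a) (Pi.single k b) =
      Complex.I / 2 * (w j k * (a * conj b) - w k j * (b * conj a)) := by
  have h : ∀ (j k : Fin d) (a b : ℂ), ∑ l, ∑ m, w l m * ((Pi.single j a : Cm d) l *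
      conj ((Pi.single k b : Cm d) m)) = w j k * (a * conj b) := by
    intro j k a b
    rw [Finset.sum_eq_single j, Finset.sum_eq_single k]
    · simp
    · intro c _ hc
      simp [hc]
    · simp
    · intro c _ hc
      simp [hc]
    · simp
  rw [kf_apply]
  congr 1
  simp only [mul_sub, Finset.sum_sub_distrib]
  rw [h, h]

theorem c20_tf (m : Matrix (Fin d) (Fin d) ℂ) : c20 (tf m) = m := by
  ext j k
  simp only [c20, Matrix.of_apply, rb0, rb1, tf_rb]
  linear_combination (-(3 : ℂ) / 4 * m j k) * Complex.I_sq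

theorem c02_tf (m : Matrix (Fin d) (Fin d) ℂ) : c02 (tf m) = 0 := by
  ext j k
  simp only [c02, Matrix.of_apply, rb0, rb1, tf_rb, Matrix.zero_apply]
  linear_combination ((1 : ℂ) / 4 * m j k) * Complex.I_sq

theorem c11_tf (m : Matrix (Fin d) (Fin d) ℂ) : c11 (tf m) = 0 := by
  ext j k
  simp only [c11, Matrix.of_apply, rb0, rb1, tf_rb, Matrix.zero_apply]
  linear_combination ((1 : ℂ) / 4 * m j k) * Complex.I_sq

theorem c20_kf (w : Matrix (Fin d) (Fin d) ℂ) : c20 (kf w) = 0 := by
  ext j k
  simp only [c20, Matrix.of_apply, rb0, rb1, kf_rb, Matrix.zero_apply, map_one, Complex.conj_I]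
  linear_combination (Complex.I * (w j k - w k j) / 8) * Complex.I_sq

theorem c02_kf (w : Matrix (Fin d) (Fin d) ℂ) : c02 (kf w) = 0 := by
  ext j k
  simp only [c02, Matrix.of_apply, rb0, rb1, kf_rb, Matrix.zero_apply, map_one, Complex.conj_I]
  linear_combination (Complex.I * (w j k - w k j) / 8) * Complex.I_sq

theorem c11_kf (w : Matrix (Fin d) (Fin d) ℂ) : c11 (kf w) = (Complex.I / 2) • w := by
  ext j k
  simp only [c11, Matrix.of_apply, rb0, rb1, kf_rb, Matrix.smul_apply, smul_eq_mul, map_one,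
    Complex.conj_I]
  linear_combination (Complex.I * (-3 * w j k - w k j) / 8) * Complex.I_sq

theorem c20_skew {α : L2 d} (ha : ∀ u v, α u v = - α v u) : (c20 α).transpose = - c20 α := by
  ext j k
  simp only [c20, Matrix.of_apply, Matrix.transpose_apply, Matrix.neg_apply]
  rw [ha (rb (k, 0)) (rb (j, 0)), ha (rb (k, 1)) (rb (j, 0)), ha (rb (k, 0)) (rb (j, 1)),
    ha (rb (k, 1)) (rb (j, 1))]
  ring

theorem conj_real {α : L2 d} (hr : ∀ u v, (α u v).im = 0) (u v : Cm d) :
    conj (α u v) = α u v := Complex.conj_eq_iff_im.2 (hr u v)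

theorem c02_real {α : L2 d} (hr : ∀ u v, (α u v).im = 0) (j k : Fin d) :
    c02 α j k = conj (c20 α j k) := by
  simp only [c20, c02, Matrix.of_apply, map_div₀, map_sub, map_mul, Complex.conj_I, map_ofNat,
    conj_real hr]
  ring

/-- The Hermitian matrix of the `(1,1)`-part. -/
def hm (α : L2 d) : Matrix (Fin d) (Fin d) ℂ := (-2 * Complex.I) • c11 α

theorem hm_kf (w : Matrix (Fin d) (Fin d) ℂ) : hm (kf w) = w := by
  rw [hm, c11_kf, smul_smul]
  have : -2 * Complex.I * (Complex.I / 2) = 1 := by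
    linear_combination (-1 : ℂ) * Complex.I_sq
  rw [this, one_smul]

theorem hm_tf (m : Matrix (Fin d) (Fin d) ℂ) : hm (tf m) = 0 := by
  rw [hm, c11_tf, smul_zero]

theorem hm_herm {α : L2 d} (ha : ∀ u v, α u v = - α v u) (hr : ∀ u v, (α u v).im = 0) :
    (hm α).IsHermitian := by
  ext j k
  simp only [hm, c11, Matrix.conjTranspose_apply, Matrix.smul_apply, Matrix.of_apply, smul_eq_mul,
    Complex.star_def, map_mul, map_neg, map_ofNat, Complex.conj_I, map_div₀, map_add, map_sub,
    conj_real hr]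
  rw [ha (rb (k, 0)) (rb (j, 0)), ha (rb (k, 1)) (rb (j, 0)), ha (rb (k, 0)) (rb (j, 1)),
    ha (rb (k, 1)) (rb (j, 1))]
  ring

/-- A real 2-form. -/
theorem real_eq {α : L2 d} (ha : ∀ u v, α u v = - α v u) (hr : ∀ u v, (α u v).im = 0) :
    α = tf (c20 α) + cj (tf (c20 α)) + kf (hm α) := by
  ext u v
  rw [decomp ha u v, add_apply, add_apply, add_apply, add_apply, cj_apply, tf_apply, kf_apply]
  simp only [map_sum, map_mul, hm, Matrix.smul_apply, smul_eq_mul, Finset.mul_sum,
    ← Finset.sum_add_distrib, c02_real hr]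
  refine Finset.sum_congr rfl fun j _ => Finset.sum_congr rfl fun k _ => ?_
  linear_combination (c11 α j k * (u j * conj (v k) - v j * conj (u k))) * Complex.I_sq

end Vale.Agent.P281.H624.HK
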