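import Vale.Agent.P281.H624.HK.Lem

/-!
# P281, project T-HK, block HI (helper624): the Hodge index theorem on `H²` in dimension `d`
-/

open Set Filter Metric MeasureTheory Vale.Agent.P272.K
open scoped Topology ContDiff ComplexConjugate ComplexOrder Matrix

noncomputable section

namespace Vale.Agent.P281.H624.HK

open Vale.Agent.P281.H64.TK Vale.Agent.P281.H64.TK.TS Vale.Agent.P272.K.C2
open Vale.Agent.P281.H83.HK Vale.Agent.P281.H624.TS

variable {d : ℕ}

theorem qq_symm {w : Matrix (Fin d) (Fin d) ℂ} (hw : w.PosDef) (u v : Matrix (Fin d) (Fin d) ℂ) :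
    qq w u v = qq w v u := by
  obtain ⟨d1, d2⟩ := det_real hw
  have hi : (w⁻¹)ᴴ = w⁻¹ := by rw [Matrix.conjTranspose_nonsing_inv, hw.1.eq]
  have hi' : ((w⁻¹)ᵀ)ᴴ = (w⁻¹)ᵀ := by
    have : ((w⁻¹)ᵀ)ᴴ = ((w⁻¹)ᴴ)ᵀ := rfl
    rw [this, hi]
  have e : conj (w⁻¹ * u * (w⁻¹)ᵀ * vᴴ).trace = (w⁻¹ * v * (w⁻¹)ᵀ * uᴴ).trace := by
    have e1 : conj (w⁻¹ * u * (w⁻¹)ᵀ * vᴴ).trace = ((w⁻¹ * u * (w⁻¹)ᵀ * vᴴ)ᴴ).trace := by
      rw [Matrix.trace_conjTranspose]; rfl
    rw [e1, Matrix.conjTranspose_mul, Matrix.conjTranspose_mul, Matrix.conjTranspose_mul,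
      Matrix.conjTranspose_conjTranspose, hi, hi', ← Matrix.mul_assoc, ← Matrix.mul_assoc,
      Matrix.trace_mul_comm]
    simp only [Matrix.mul_assoc]
  rw [qq, qq, ← e, d2, Complex.re_ofReal_mul, Complex.re_ofReal_mul, Complex.conj_re]

theorem qq_sub {w : Matrix (Fin d) (Fin d) ℂ} (hw : w.PosDef) (u h : Matrix (Fin d) (Fin d) ℂ) :
    qq w u u = 2 * qq w h u - qq w h h + qq w (u - h) (u - h) := by
  have e : qq w (u - h) (u - h) = qq w u u - qq w u h - qq w h u + qq w h h := by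
    have : w⁻¹ * (u - h) * (w⁻¹)ᵀ * (u - h)ᴴ = w⁻¹ * u * (w⁻¹)ᵀ * uᴴ - w⁻¹ * u * (w⁻¹)ᵀ * hᴴ -
        w⁻¹ * h * (w⁻¹)ᵀ * uᴴ + w⁻¹ * h * (w⁻¹)ᵀ * hᴴ := by
      rw [Matrix.conjTranspose_sub]
      noncomm_ring
    rw [qq, this]
    simp only [qq, Matrix.trace_add, Matrix.trace_sub, mul_add, mul_sub, Complex.add_re,
      Complex.sub_re]
  rw [e, qq_symm hw u h]
  ring

theorem cont_nm {f : Cm d → L2 d} (h : ∀ z ∈ ball (0 : Cm d) 3, ContDiffAt ℝ ∞ f z) :
    ContinuousOn (fun z => ‖f z‖ ^ 2) (ball 0 3) := by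
  intro z hz
  have h1 : ContinuousAt f z := (h z hz).continuousAt
  have h2 : ContinuousAt (fun z => ‖f z‖) z :=
    ContinuousAt.comp (g := fun α : L2 d => ‖α‖)
      (continuous_norm (E := Cm d →L[ℝ] Cm d →L[ℝ] ℂ)).continuousAt h1
  exact (h2.pow 2).continuousWithinAt

theorem cont_fro {f : Cm d → Matrix (Fin d) (Fin d) ℂ} (h : ∀ z ∈ ball (0 : Cm d) 3, MC ∞ f z) :
    ContinuousOn (fun z => fro (f z)) (ball 0 3) := by
  intro z hz
  refine ContinuousAt.continuousWithinAt ?_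
  simp only [fro]
  exact tendsto_finsetSum _ fun i _ => tendsto_finsetSum _ fun j _ =>
    ((h z hz i j).continuousAt.norm.pow 2)

theorem cont_sq {f : Cm d → ℂ} (h : ∀ z ∈ ball (0 : Cm d) 3, ContDiffAt ℝ ∞ f z) :
    ContinuousOn (fun z => ‖f z‖ ^ 2) (ball 0 3) := fun z hz =>
  ((h z hz).continuousAt.norm.pow 2).continuousWithinAt

theorem cont_sq' {f : Cm d → ℂ} (h : ∀ z ∈ ball (0 : Cm d) 3, ContDiffAt ℝ ∞ f z) :
    ContinuousOn (fun z => ((‖f z‖ ^ 2 : ℝ) : ℂ)) (ball 0 3) := fun z hz =>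
  (Complex.continuous_ofReal.continuousAt.comp
    ((h z hz).continuousAt.norm.pow 2)).continuousWithinAt

section
variable {E Γ : Type} [TopologicalSpace E] [T2Space E] [Group Γ] [Subsingleton Γ]
    [MulAction Γ E] [ContinuousConstSMul Γ E] {S : Sheets d E Γ}

omit [T2Space E] [Subsingleton Γ] [ContinuousConstSMul Γ E] in
theorem cont_W3 {a b c : Fin S.N → Cm d → L2 d} (ha : Cl2 S a) (hb : Cl2 S b) (hc : Cl2 S c)
    (i : Fin S.N) : ContinuousOn (fun z => W3 (a i z) (b i z) (c i z)) (ball 0 3) :=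
  cont_of fun z hz => W3_sm (ha.smooth i z hz trivial) (hb.smooth i z hz trivial)
    (hc.smooth i z hz trivial)

/-- Stokes, for `bW`. -/
theorem bW_d1 (hS : WStokesStmt) (h2 : 2 ≤ d) {b c : Fin S.N → Cm d → L2 d}
    {β : Fin S.N → Cm d → L1 d} (hβ : F1On S univ β) (hb : Cl2 S b) (hc : Cl2 S c) :
    bW S (fun i z => d1 (β i) z) b c = 0 := by
  have h := hS d E Γ S (fun l i z => abc 0 (b i z) (c i z) l) ⟨0, by omega⟩ β ?_ hβ
  · rw [← h]
    refine int_congr fun i z _ => ?_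
    rw [W3, abc_upd h2 _ 0]
  · intro l hl
    have h0 : l.val ≠ 0 := fun h' => hl (Fin.ext h')
    by_cases h1 : l.val = 1
    · have : (fun i z => abc 0 (b i z) (c i z) l) = b := by
        funext i z; simp [abc, h1]
      rw [this]; exact hb
    · have : (fun i z => abc 0 (b i z) (c i z) l) = c := by
        funext i z; simp [abc, h0, h1]
      rw [this]; exact hc

omit [T2Space E] [Subsingleton Γ] [ContinuousConstSMul Γ E] in
theorem bW_sub (hW : WLinStmt) (h2 : 2 ≤ d) {a a' b c : Fin S.N → Cm d → L2 d} (ha : Cl2 S a)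
    (ha' : Cl2 S a') (hb : Cl2 S b) (hc : Cl2 S c) :
    bW S (fun i z => a i z - a' i z) b c = bW S a b c - bW S a' b c := by
  simp only [bW]
  rw [← int_sub (cont_W3 ha hb hc) (cont_W3 ha' hb hc)]
  exact int_congr fun i z _ => W3_sub hW h2 _ _ _ _

theorem bW_sq (hW : WLinStmt) (hS : WStokesStmt) (h2 : 2 ≤ d) {α c : Fin S.N → Cm d → L2 d}
    {β : Fin S.N → Cm d → L1 d} (h : Cl2 S α) (hc : Cl2 S c) (hβ : F1On S univ β) :
    bW S (fun i z => α i z - d1 (β i) z) (fun i z => α i z - d1 (β i) z) c = bW S α α c := by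
  have hd := cl2_d1 hβ
  have h1 := cl2_sub h hd
  have e : bW S α α c - bW S (fun i z => α i z - d1 (β i) z) (fun i z => α i z - d1 (β i) z) c =
      bW S (fun i z => d1 (β i) z) α c +
        bW S (fun i z => d1 (β i) z) (fun i z => α i z - d1 (β i) z) c := by
    simp only [bW]
    rw [← int_sub (cont_W3 h h hc) (cont_W3 h1 h1 hc), ← int_add (cont_W3 hd h hc)
      (cont_W3 hd h1 hc)]
    refine int_congr fun i z _ => ?_
    rw [W3_sub hW h2 (α i z) (d1 (β i) z), W3_sub_right hW h2 (α i z) (α i z) (d1 (β i) z),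
      W3_comm hW h2 (α i z) (d1 (β i) z)]
    ring
  rw [bW_d1 hS h2 hβ h hc, bW_d1 hS h2 hβ h1 hc, add_zero] at e
  exact (sub_eq_zero.1 e).symm

theorem cl2_kw (hF : FormsStmt) (h0 : 0 < d) {w : Fin S.N → Cm d → Matrix (Fin d) (Fin d) ℂ}
    (hk : Kah S w) : Cl2 S (kw w) := ((hF d E Γ S h0).2.1 w hk).1

theorem real2_kw (hF : FormsStmt) (h0 : 0 < d) {w : Fin S.N → Cm d → Matrix (Fin d) (Fin d) ℂ}
    (hk : Kah S w) : Real2 S (kw w) := ((hF d E Γ S h0).2.1 w hk).2

/-- Step 1: the `(2,0)`-part. -/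
theorem step1 [PreconnectedSpace E] (hW : WLinStmt) (hV : WValStmt) (hF : FormsStmt)
    (hS : WStokesStmt) (hT : HTStmt) (h2 : 2 ≤ d)
    {w : Fin S.N → Cm d → Matrix (Fin d) (Fin d) ℂ} (hk : Kah S w) {α : Fin S.N → Cm d → L2 d}
    (h : Cl2 S α) (hr : Real2 S α) (ho : ∀ s, Hol2 S s → bW S α (ts s) (kw w) = 0)
    {C : ℝ} (hC : ∀ i, ∀ z ∈ closedBall (0 : Cm d) 1,
      (w i z).det.re * ((w i z)⁻¹).trace.re ^ 2 ≤ C) (hC0 : 0 ≤ C) {ε : ℝ} (hε : 0 < ε) :
    ∃ β : Fin S.N → Cm d → L1 d, F1On S univ β ∧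
      (∀ i, ∀ z ∈ ball (0 : Cm d) 3, ∀ u v, (d1 (β i) z u v).im = 0) ∧
      rI S (fun i z => qq (w i z) (c20 (α i z - d1 (β i) z)) (c20 (α i z - d1 (β i) z))) ≤
        C * ε := by
  have h0 : 0 < d := by omega
  obtain ⟨s, hs, hβ⟩ := hT d E Γ S w α h2 hk h
  obtain ⟨β₀, b1, b2, b3⟩ := hβ ε hε
  set v : Fin S.N → Cm d → Fin d → ℂ := fun i z k => β₀ i z (Pi.single k 1) with hv
  have v1 : ∀ i k, ContDiffOn ℝ ∞ (fun z => v i z k) (ball 0 3) := fun i k z hz =>
    ((b1.smooth i z hz trivial).clm_apply contDiffAt_const).contDiffWithinAt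
  have v1c : ∀ i k, ContDiffOn ℝ ∞ (fun z => conj (v i z k)) (ball 0 3) := fun i k z hz =>
    (contDiffAt_conj ((v1 i k).contDiffAt (isOpen_ball.mem_nhds hz))).contDiffWithinAt
  have v2 : ∀ i, ∀ z ∈ ball (0 : Cm d) 3, ∀ y : Cm d, β₀ i z y = ∑ k, v i z k * y k := by
    intro i z hz y
    conv_lhs => rw [vec_eq y]
    rw [map_sum]
    refine Finset.sum_congr rfl fun k _ => ?_
    have e1 : rb (k, 1) = Complex.I • rb (d := d) (k, 0) := by
      rw [rb0, rb1, ← Pi.single_smul, smul_eq_mul, mul_one]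
    rw [map_add, map_smul, map_smul, e1, b2 i z hz, Complex.real_smul, Complex.real_smul, rb0]
    simp only [hv]
    linear_combination (-(β₀ i z (Pi.single k 1))) * (Complex.re_add_im (y k)).symm
  have v3 : ∀ i j, ∀ z ∈ ball (0 : Cm d) 3, ∀ z' ∈ ball (0 : Cm d) 3, ∀ θ : Cm d → Cm d,
      AnalyticAt ℂ θ z → θ z = z' → (∀ᶠ u in 𝓝 z, S.σ i u = S.σ j (θ u)) →
        ∀ k, v i z k = ∑ l, v j z' l * H64.TK.jac θ z l k := by
    intro i j z hz z' hz' θ t1 t2 t3 k
    have e1 := b1.change i j z hz z' hz' trivial θ (hol_tr S t1 t2 t3) (Pi.single k 1)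
    rw [fd_mulVec t1 (by rfl), v2 j z' hz'] at e1
    rw [hv]
    simp only
    rw [e1]
    refine Finset.sum_congr rfl fun l _ => ?_
    rw [Matrix.mulVec_single_one]
    rfl
  have eq0 : ∀ i, ∀ z ∈ ball (0 : Cm d) 3, β₀ i =ᶠ[𝓝 z] fun y => of1 (v i y) 0 := by
    intro i z hz
    filter_upwards [isOpen_ball.mem_nhds hz] with y hy
    ext x
    rw [v2 i y hy, of1_apply]
    simp
  have dc : ∀ i, ∀ z ∈ ball (0 : Cm d) 3, c20 (d1 (β₀ i) z) =
      c20 (d1 (fun y => of1 (v i y) (fun k => conj (v i y k))) z) := by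
    intro i z hz
    have e1 : d1 (β₀ i) z = d1 (fun y => of1 (v i y) 0) z := by
      simp only [d1, (eq0 i z hz).fderiv_eq]
    rw [e1]
    ext j k
    rw [c20_d1 (p := v i) (q := fun _ => 0) isOpen_ball hz (v1 i) (fun k => contDiffOn_const),
      c20_d1 (p := v i) (q := fun y k => conj (v i y k)) isOpen_ball hz (v1 i) (v1c i)]
  set β : Fin S.N → Cm d → L1 d := fun i y => of1 (v i y) (fun k => conj (v i y k)) with hβd
  have f1 : F1On S univ β := f1_v v1 v3
  have im0 : ∀ i, ∀ z ∈ ball (0 : Cm d) 3, ∀ u y, (d1 (β i) z u y).im = 0 := fun i z hz u y =>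
    im_d1 isOpen_ball hz (v1 i) u y
  have hA := cl2_sub h (cl2_d1 f1)
  have hAr : Real2 S (fun i z => α i z - d1 (β i) z) := by
    intro i z hz u y
    rw [sub_apply, sub_apply, Complex.sub_im, hr i z hz, im0 i z hz, sub_zero]
  refine ⟨β, f1, im0, ?_⟩
  have hkw := cl2_kw hF h0 hk
  have hts : Cl2 S (ts s) := (hF d E Γ S h0).1 s hs
  -- the pairing
  have pair : rI S (fun i z => qq (w i z) (s i z) (c20 (α i z - d1 (β i) z))) = 0 := by
    have e1 : bW S (fun i z => α i z - d1 (β i) z) (ts s) (kw w) = 0 := by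
      rw [bW_sub hW h2 h (cl2_d1 f1) hts hkw, ho s hs, bW_d1 hS h2 f1 hts hkw, sub_zero]
    have hc := cont_W3 hA hts hkw
    have e2 : (bW S (fun i z => α i z - d1 (β i) z) (ts s) (kw w)).re =
        rI S (fun i z => (((d - 2).factorial : ℝ) * 2) *
          qq (w i z) (s i z) (c20 (α i z - d1 (β i) z))) := by
      rw [bW, int_re hc]
      refine rI_congr fun i z hz => ?_
      have ha1 : ∀ u y, (α i z - d1 (β i) z) u y = -(α i z - d1 (β i) z) y u :=
        hA.alt i z hz trivial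
      have ha2 : ∀ u y, tf (s i z) u y = -tf (s i z) y u := hts.alt i z hz trivial
      have h3 := hV d (α i z - d1 (β i) z) (tf (s i z)) (w i z) h2 ha1 ha2 (hk.posDef i z hz)
      have h4 : W3 (α i z - d1 (β i) z) (ts s i z) (kw w i z) =
        W3 (α i z - d1 (β i) z) (tf (s i z)) (kf (w i z)) := rfl
      rw [h4, h3, h11_eq, h11_eq, hm_tf, c02_tf, c20_tf, c02_real' (hAr i z hz), qq]
      simp only [Matrix.trace_zero, Matrix.transpose_zero, mul_zero, sub_zero,
        zero_add]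
      have e3 : (((d - 2).factorial : ℂ) * (w i z).det *
          (2 * ((w i z)⁻¹ * s i z * ((w i z)⁻¹)ᵀ * (c20 (α i z - d1 (β i) z))ᴴ).trace)) =
          (((((d - 2).factorial : ℝ) * 2 : ℝ)) : ℂ) * ((w i z).det *
          ((w i z)⁻¹ * s i z * ((w i z)⁻¹)ᵀ * (c20 (α i z - d1 (β i) z))ᴴ).trace) := by
        push_cast
        ring
      rw [e3, Complex.re_ofReal_mul]
    rw [e1, Complex.zero_re, rI_mul] at e2
    have hp : (((d - 2).factorial : ℝ) * 2) ≠ 0 := by positivity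
    exact (mul_eq_zero.1 e2.symm).resolve_left hp
  have smA : ∀ i, ∀ z ∈ ball (0 : Cm d) 3, MC ∞ (fun y => c20 (α i y - d1 (β i) y)) z :=
    fun i z hz => mc_c20 (hA.smooth i z hz trivial)
  have smS : ∀ i, ∀ z ∈ ball (0 : Cm d) 3, MC ∞ (s i) z := fun i z hz => by
    have := mc_c20 (hts.smooth i z hz trivial)
    intro j k
    have e := this j k
    simp only [ts, c20_tf] at e
    exact e
  have cQ : ∀ i, ContinuousOn (fun z => qq (w i z) (c20 (α i z - d1 (β i) z))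
      (c20 (α i z - d1 (β i) z))) (ball 0 3) := fun i =>
    cont_of fun z hz => sm_qq hk i hz (smA i z hz) (smA i z hz)
  have cP : ∀ i, ContinuousOn (fun z => 2 * qq (w i z) (s i z) (c20 (α i z - d1 (β i) z)))
      (ball 0 3) := fun i => continuousOn_const.mul
    (cont_of fun z hz => sm_qq hk i hz (smS i z hz) (smA i z hz))
  have cR : ∀ i, ContinuousOn (fun z => C * fro (c20 (α i z - d1 (β i) z) - s i z))
      (ball 0 3) := fun i => continuousOn_const.mul
    (cont_fro fun z hz => (smA i z hz).sub (smS i z hz))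
  have cS : ∀ i, ContinuousOn (fun z => 2 * qq (w i z) (s i z) (c20 (α i z - d1 (β i) z)) +
      C * fro (c20 (α i z - d1 (β i) z) - s i z)) (ball 0 3) := fun i => (cP i).add (cR i)
  have le : rI S (fun i z => qq (w i z) (c20 (α i z - d1 (β i) z)) (c20 (α i z - d1 (β i) z))) ≤
      rI S (fun i z => 2 * qq (w i z) (s i z) (c20 (α i z - d1 (β i) z)) +
        C * fro (c20 (α i z - d1 (β i) z) - s i z)) := by
    refine rI_mono cQ cS fun i z hz => ?_
    have hp := hk.posDef i z (b13 hz)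
    rw [qq_sub hp (c20 (α i z - d1 (β i) z)) (s i z)]
    have g1 := (qq_bd hp (s i z)).1
    have g2 := (qq_bd hp (c20 (α i z - d1 (β i) z) - s i z)).2.2
    have g3 := mul_le_mul_of_nonneg_right (hC i z hz)
      (fro_nonneg (c20 (α i z - d1 (β i) z) - s i z))
    linarith
  rw [rI_add cP cR, rI_mul, rI_mul, pair, mul_zero, zero_add] at le
  refine le.trans (mul_le_mul_of_nonneg_left ?_ hC0)
  have e4 : rI S (fun i z => fro (c20 (α i z - d1 (β i) z) - s i z)) =
      ∑ i, ∫ z in S.P i, ∑ j, ∑ k, ‖(c20 (α i z - d1 (β₀ i) z) - s i z) j k‖ ^ 2 := by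
    refine rI_congr (g := fun i z => ∑ j, ∑ k, ‖(c20 (α i z - d1 (β₀ i) z) - s i z) j k‖ ^ 2)
      fun i z hz => ?_
    rw [c20_sub, c20_sub, dc i z hz, fro]
  rw [e4]
  exact b3.le

/-- Step 2: remove the trace. -/
theorem step2 [PreconnectedSpace E] (hV : WValStmt) (hF : FormsStmt) (hL : LapStmt) (h2 : 2 ≤ d)
    {w : Fin S.N → Cm d → Matrix (Fin d) (Fin d) ℂ} (hk : Kah S w)
    {α : Fin S.N → Cm d → L2 d} (h : Cl2 S α) (hr : Real2 S α)
    (h0 : bW S α (kw w) (kw w) = 0) {ε : ℝ} (hε : 0 < ε) :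
    ∃ γ : Fin S.N → Cm d → L1 d, F1On S univ γ ∧
      (∀ i, ∀ z ∈ ball (0 : Cm d) 3, ∃ H : Matrix (Fin d) (Fin d) ℂ, H.IsHermitian ∧
        d1 (γ i) z = kf H) ∧
      rI S (fun i z => ‖tw (w i z) (α i z - d1 (γ i) z)‖ ^ 2 * (w i z).det.re) < ε := by
  have hd0 : 0 < d := by omega
  have dne : ∀ i, ∀ z ∈ ball (0 : Cm d) 3, (w i z).det ≠ 0 := fun i z hz => det_ne hk i hz
  have hc := cl2_kw hF hd0 hk
  have inv : ∀ i j, ∀ z ∈ ball (0 : Cm d) 3, ∀ z' ∈ ball (0 : Cm d) 3, S.σ i z = S.σ j z' →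
      tw (w i z) (α i z) = tw (w j z') (α j z') := by
    intro i j z hz z' hz' e
    obtain ⟨θ, t1, t2, t3⟩ := tr_ex S hz hz' e
    have hH := hm_change (α := α i z) (α' := α j z') (H64.TK.jac θ z) (h.alt j z' hz' trivial)
      (hr j z' hz') (fun u v => by
        rw [h.change i j z hz z' hz' trivial θ (hol_tr S t1 t2 t3), fd_mulVec t1 (by rfl),
          fd_mulVec t1 (by rfl)])
    have hw := hk.change i j z hz z' hz' 1 θ t1 t2 (by simpa using t3)
    exact trc_inv hw hH (dne i z hz)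
  choose I Z hZ1 hZ2 using cov S
  set G : Fin S.N → Cm d → ℂ := fun i z => tw (w i z) (α i z) with hG
  have gim : ∀ i, ∀ z ∈ ball (0 : Cm d) 3, (G i z).im = 0 := by
    intro i z hz
    have e := trc_real (hk.posDef i z hz).1 (hm_herm (h.alt i z hz trivial) (hr i z hz))
    rw [hG]
    simp only [tw]
    rw [e, Complex.ofReal_im]
  have gE : ∀ i, ∀ z ∈ ball (0 : Cm d) 3,
      ((fun e => (G (I e) (Z e)).re) (S.σ i z) : ℂ) = G i z := by
    intro i z hz
    have e1 : G (I (S.σ i z)) (Z (S.σ i z)) = G i z :=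
      inv _ _ _ (mem3 (hZ1 _)) z hz (hZ2 _)
    apply Complex.ext
    · simp [e1]
    · simp [gim i z hz]
  have gsm : SmOn S univ (fun e => (((G (I e) (Z e)).re : ℝ) : ℂ)) := by
    intro i z hz _
    refine (sm_tw hk h i hz).congr_of_eventuallyEq ?_
    filter_upwards [isOpen_ball.mem_nhds hz] with y hy using gE i y hy
  have hfac : (((d - 2).factorial : ℂ) * ((d : ℂ) - 1)) ≠ 0 := by
    refine mul_ne_zero (by exact_mod_cast (Nat.factorial_pos _).ne') ?_
    have : (d : ℂ) ≠ 1 := by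
      have : d ≠ 1 := by omega
      exact_mod_cast this
    exact sub_ne_zero.2 this
  have hint : S.int (fun i z => (((G (I (S.σ i z)) (Z (S.σ i z))).re : ℝ) : ℂ) * (w i z).det) = 0 := by
    have e0 : bW S α (kw w) (kw w) = (((d - 2).factorial : ℂ) * ((d : ℂ) - 1)) *
        S.int (fun i z => (((G (I (S.σ i z)) (Z (S.σ i z))).re : ℝ) : ℂ) * (w i z).det) := by
      rw [← int_mul]
      refine int_congr fun i z hz => ?_
      have e1 := gE i z hz
      simp only at e1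
      rw [e1, hG]
      simp only
      have h3 := hV d (α i z) (kf (w i z)) (w i z) h2 (h.alt i z hz trivial)
        (hc.alt i z hz trivial) (hk.posDef i z hz)
      have h4 : W3 (α i z) (kw w i z) (kw w i z) = W3 (α i z) (kf (w i z)) (kf (w i z)) := rfl
      have hu : IsUnit (w i z).det := isUnit_iff_ne_zero.2 (dne i z hz)
      rw [h4, h3, h11_eq, h11_eq, hm_kf, c02_kf, c20_kf, Matrix.nonsing_inv_mul _ hu,
        Matrix.trace_one, Fintype.card_fin, tw]
      simp only [Matrix.trace_zero, Matrix.transpose_zero, mul_zero, zero_mul, add_zero, mul_one]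
      ring
    rw [e0] at h0
    exact (mul_eq_zero.1 h0).resolve_left hfac
  obtain ⟨φ, p1, p2⟩ := hL d E Γ S w (fun e => (G (I e) (Z e)).re) hd0 hk gsm hint ε hε
  have hsm : ∀ i, ∀ y ∈ ball (0 : Cm d) 3, ContDiffAt ℝ ∞ (fun y => (φ (S.σ i y) : ℂ)) y :=
    fun i y hy => p1 i y hy trivial
  have hd : ∀ i, ∀ z ∈ ball (0 : Cm d) 3, d1 (fun y => of1 0 (fun k => Complex.I / 2 *
      dzb k (fun y => (φ (S.σ i y) : ℂ)) y)) z = kf (cHess (fun y => φ (S.σ i y)) z) :=
    fun i z hz => d1_phi (φ := fun y => φ (S.σ i y)) isOpen_ball hz (hsm i)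
  refine ⟨_, f1_phi p1, ?_, ?_⟩
  · intro i z hz
    refine ⟨cHess (fun y => φ (S.σ i y)) z, ?_, hd i z hz⟩
    have h1 : ContDiffAt ℝ ∞ (fun y => (φ (S.σ i y) : ℝ)) z :=
      Complex.reCLM.contDiff.contDiffAt.comp z (hsm i z hz)
    exact C2.cHess_isHermitian (h1.of_le (WithTop.coe_le_coe.2 le_top))
  · have e' : ∀ i, ∀ z ∈ ball (0 : Cm d) 3,
        ‖((w i z)⁻¹ * cHess (fun u => φ (S.σ i u)) z).trace -
          (G (I (S.σ i z)) (Z (S.σ i z))).re‖ =
        ‖tw (w i z) (α i z - d1 (fun y => of1 0 (fun k => Complex.I / 2 *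
          dzb k (fun y => (φ (S.σ i y) : ℂ)) y)) z)‖ := by
      intro i z hz
      have := gE i z hz
      simp only at this
      rw [this, hd i z hz, tw, hm_sub, hm_kf, Matrix.mul_sub, Matrix.trace_sub, norm_sub_rev]
      rfl
    have e : ∀ i, ∀ z ∈ ball (0 : Cm d) 3,
        ‖tw (w i z) (α i z - d1 (fun y => of1 0 (fun k => Complex.I / 2 *
          dzb k (fun y => (φ (S.σ i y) : ℂ)) y)) z)‖ ^ 2 * (w i z).det.re =
        (((‖((w i z)⁻¹ * cHess (fun u => φ (S.σ i u)) z).trace -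
          (G (I (S.σ i z)) (Z (S.σ i z))).re‖ ^ 2 : ℝ) : ℂ) * (w i z).det).re := by
      intro i z hz
      rw [Complex.re_ofReal_mul, e' i z hz]
    rw [rI_congr e, ← int_re]
    · exact p2
    · intro i
      have hcl := cl2_sub h (cl2_d1 (f1_phi p1))
      refine ((cont_sq' fun z hz => sm_tw hk hcl i hz).mul
        (cont_of fun z hz => sm_det hk i hz)).congr fun z hz => ?_
      simp only [e' i z hz]
      rfl

/-- Both steps. -/
theorem approx [PreconnectedSpace E] (hW : WLinStmt) (hV : WValStmt) (hF : FormsStmt)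
    (hS : WStokesStmt) (hT : HTStmt) (hL : LapStmt) (h2 : 2 ≤ d)
    {w : Fin S.N → Cm d → Matrix (Fin d) (Fin d) ℂ} (hk : Kah S w) {α : Fin S.N → Cm d → L2 d}
    (h : Cl2 S α) (hr : Real2 S α) (h0 : bW S α (kw w) (kw w) = 0)
    (ho : ∀ s, Hol2 S s → bW S α (ts s) (kw w) = 0)
    {C : ℝ} (hC : ∀ i, ∀ z ∈ closedBall (0 : Cm d) 1,
      (w i z).det.re * ((w i z)⁻¹).trace.re ^ 2 ≤ C) (hC0 : 0 ≤ C) {ε : ℝ} (hε : 0 < ε) :
    ∃ β : Fin S.N → Cm d → L1 d, F1On S univ β ∧ Real2 S (fun i z => α i z - d1 (β i) z) ∧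
      rI S (fun i z => qq (w i z) (c20 (α i z - d1 (β i) z)) (c20 (α i z - d1 (β i) z))) ≤
        C * ε ∧
      rI S (fun i z => ‖tw (w i z) (α i z - d1 (β i) z)‖ ^ 2 * (w i z).det.re) < ε := by
  have hd0 : 0 < d := by omega
  have hc := cl2_kw hF hd0 hk
  obtain ⟨β, b1, b2, b3⟩ := step1 hW hV hF hS hT h2 hk h hr ho hC hC0 hε
  have h' := cl2_sub h (cl2_d1 b1)
  have hr' : Real2 S (fun i z => α i z - d1 (β i) z) := by
    intro i z hz u v
    rw [sub_apply, sub_apply, Complex.sub_im, hr i z hz, b2 i z hz, sub_zero]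
  have h0' : bW S (fun i z => α i z - d1 (β i) z) (kw w) (kw w) = 0 := by
    rw [bW_sub hW h2 h (cl2_d1 b1) hc hc, h0, bW_d1 hS h2 b1 hc hc, sub_zero]
  obtain ⟨γ, g1, g2, g3⟩ := step2 hV hF hL h2 hk h' hr' h0' hε
  have hd : ∀ i, ∀ z ∈ ball (0 : Cm d) 3, α i z - d1 (fun y => β i y + γ i y) z =
      α i z - d1 (β i) z - d1 (γ i) z := by
    intro i z hz
    rw [d1_add ((b1.smooth i z hz trivial).differentiableAt (by simp))
      ((g1.smooth i z hz trivial).differentiableAt (by simp))]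
    ext u v
    simp only [sub_apply, add_apply]
    ring
  refine ⟨fun i z => β i z + γ i z, f1_add b1 g1, ?_, ?_, ?_⟩
  · intro i z hz u v
    obtain ⟨H, H1, H2⟩ := g2 i z hz
    have hk1 : (kf H u v).im = 0 := by
      have e : conj (kf H u v) = kf H u v := by
        rw [kf_apply, map_mul, map_sum]
        simp only [map_sum, map_mul, map_sub, map_div₀, Complex.conj_I, Complex.conj_conj,
          map_ofNat]
        have e1 : ∑ j, ∑ k, conj (H j k) * (conj (u j) * v k - conj (v j) * u k) =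
            - ∑ j, ∑ k, H j k * (u j * conj (v k) - v j * conj (u k)) := by
          rw [Finset.sum_comm, ← Finset.sum_neg_distrib]
          refine Finset.sum_congr rfl fun j _ => ?_
          rw [← Finset.sum_neg_distrib]
          refine Finset.sum_congr rfl fun k _ => ?_
          have := H1.apply j k
          simp only [Complex.star_def] at this
          rw [← this]
          ring
        rw [e1]
        ring
      exact Complex.conj_eq_iff_im.1 e
    simp only [hd i z hz]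
    rw [sub_apply, sub_apply, Complex.sub_im, hr' i z hz, H2, hk1, sub_zero]
  · refine (le_of_eq (rI_congr fun i z hz => ?_)).trans b3
    obtain ⟨H, H1, H2⟩ := g2 i z hz
    rw [hd i z hz, c20_sub (α i z - d1 (β i) z), H2, c20_kf, sub_zero]
  · refine lt_of_eq_of_lt (rI_congr fun i z hz => ?_) g3
    rw [hd i z hz]

theorem cont_NN {w : Fin S.N → Cm d → Matrix (Fin d) (Fin d) ℂ} {α : Fin S.N → Cm d → L2 d}
    (hF : FormsStmt) (hd0 : 0 < d) (hk : Kah S w) (h : Cl2 S α) (i : Fin S.N) :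
    ContinuousOn (fun z => NN (w i z) (α i z)) (ball 0 3) := by
  have hc := cl2_kw hF hd0 hk
  have c1 : ContinuousOn (fun z => qq (w i z) (c20 (α i z)) (c20 (α i z))) (ball 0 3) :=
    cont_of fun z hz => sm_qq hk i hz (mc_c20 (h.smooth i z hz trivial))
      (mc_c20 (h.smooth i z hz trivial))
  have c2 : ContinuousOn (fun z => ‖tw (w i z) (α i z)‖ ^ 2) (ball 0 3) :=
    cont_sq fun z hz => sm_tw hk h i hz
  have c3 : ContinuousOn (fun z => (w i z).det.re) (ball 0 3) :=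
    Complex.continuous_re.comp_continuousOn (cont_of fun z hz => sm_det hk i hz)
  have c4 : ContinuousOn (fun z => (W3 (α i z) (α i z) (kf (w i z))).re) (ball 0 3) :=
    Complex.continuous_re.comp_continuousOn (cont_W3 h h hc i)
  exact ((c2.mul c3).add (continuousOn_const.mul c1)).sub (continuousOn_const.mul c4)

/-- The integrated identity. -/
theorem int_NN {w : Fin S.N → Cm d → Matrix (Fin d) (Fin d) ℂ} {α : Fin S.N → Cm d → L2 d}
    (hF : FormsStmt) (hd0 : 0 < d) (hk : Kah S w) (h : Cl2 S α) :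
    rI S (fun i z => NN (w i z) (α i z)) +
      ((d - 2).factorial : ℝ)⁻¹ * (bW S α α (kw w)).re =
      rI S (fun i z => ‖tw (w i z) (α i z)‖ ^ 2 * (w i z).det.re) +
        4 * rI S (fun i z => qq (w i z) (c20 (α i z)) (c20 (α i z))) := by
  have hc := cl2_kw hF hd0 hk
  have c1 : ∀ i, ContinuousOn (fun z => 4 * qq (w i z) (c20 (α i z)) (c20 (α i z)))
      (ball 0 3) := fun i => continuousOn_const.mul
    (cont_of fun z hz => sm_qq hk i hz (mc_c20 (h.smooth i z hz trivial))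
      (mc_c20 (h.smooth i z hz trivial)))
  have c2 : ∀ i, ContinuousOn (fun z => ‖tw (w i z) (α i z)‖ ^ 2 * (w i z).det.re)
      (ball 0 3) := fun i => (cont_sq fun z hz => sm_tw hk h i hz).mul
    (Complex.continuous_re.comp_continuousOn (cont_of fun z hz => sm_det hk i hz))
  have c4 : ∀ i, ContinuousOn (fun z => ((d - 2).factorial : ℝ)⁻¹ *
      (W3 (α i z) (α i z) (kw w i z)).re) (ball 0 3) := fun i => continuousOn_const.mul
    (Complex.continuous_re.comp_continuousOn (cont_W3 h h hc i))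
  rw [bW, int_re (cont_W3 h h hc), ← rI_mul, ← rI_mul, ← rI_add (cont_NN hF hd0 hk h) c4,
    ← rI_add c2 c1]
  refine rI_congr fun i z _ => ?_
  have e : W3 (α i z) (α i z) (kw w i z) = W3 (α i z) (α i z) (kf (w i z)) := rfl
  rw [NN, e]
  ring

theorem nn_nonneg (hV : WValStmt) (hF : FormsStmt) (h2 : 2 ≤ d)
    {w : Fin S.N → Cm d → Matrix (Fin d) (Fin d) ℂ}
    {α : Fin S.N → Cm d → L2 d} (hk : Kah S w) (h : Cl2 S α) (hr : Real2 S α) :
    0 ≤ rI S (fun i z => NN (w i z) (α i z)) := by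
  have : rI S (fun i z => (0 : ℝ)) ≤ rI S (fun i z => NN (w i z) (α i z)) := by
    refine rI_mono (fun i => continuousOn_const) (cont_NN hF (by omega) hk h) fun i z hz => ?_
    exact (pt_bd hV h2 (hk.posDef i z (b13 hz)) (h.alt i z (b13 hz) trivial)
      (hr i z (b13 hz))).1
  simpa [rI] using this

omit [T2Space E] [Subsingleton Γ] [ContinuousConstSMul Γ E] in
theorem exists_C {w : Fin S.N → Cm d → Matrix (Fin d) (Fin d) ℂ} (hk : Kah S w) :
    ∃ C : ℝ, 0 ≤ C ∧ ∀ i, ∀ z ∈ closedBall (0 : Cm d) 1,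
      (w i z).det.re * ((w i z)⁻¹).trace.re ^ 2 ≤ C ∧
        8 * d ^ 2 * ((w i z).trace.re ^ 2 / (w i z).det.re) ≤ C := by
  have hdet : ∀ i, ContinuousOn (fun z => (w i z).det.re) (closedBall 0 1) := fun i =>
    (Complex.continuous_re.comp_continuousOn
      (cont_of fun z hz => sm_det hk i hz)).mono b13
  have : ∀ i, ∃ C : ℝ, 0 ≤ C ∧ ∀ z ∈ closedBall (0 : Cm d) 1,
      (w i z).det.re * ((w i z)⁻¹).trace.re ^ 2 ≤ C ∧
        8 * d ^ 2 * ((w i z).trace.re ^ 2 / (w i z).det.re) ≤ C := by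
    intro i
    have hc : ContinuousOn (fun z => 8 * (d : ℝ) ^ 2 * ((w i z).trace.re ^ 2 / (w i z).det.re))
        (closedBall 0 1) := by
      refine continuousOn_const.mul (ContinuousOn.div ?_ (hdet i) fun z hz => ?_)
      · exact ((Complex.continuous_re.comp_continuousOn
          (cont_of fun z hz => sm_trc hk i hz)).pow 2).mono b13
      · exact (Complex.pos_iff.1 (hk.posDef i z (b13 hz)).det_pos).1.ne'
    have hc' : ContinuousOn (fun z => (w i z).det.re * ((w i z)⁻¹).trace.re ^ 2)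
        (closedBall 0 1) :=
      (hdet i).mul (((Complex.continuous_re.comp_continuousOn
          (cont_of fun z hz => sm_trc' hk i hz)).pow 2).mono b13)
    obtain ⟨C, hC⟩ := (isCompact_closedBall (0 : Cm d) 1).bddAbove_image hc
    obtain ⟨C', hC'⟩ := (isCompact_closedBall (0 : Cm d) 1).bddAbove_image hc'
    refine ⟨max (max C C') 0, le_max_right _ _, fun z hz => ⟨?_, ?_⟩⟩
    · exact (hC' ⟨z, hz, rfl⟩).trans ((le_max_right _ _).trans (le_max_left _ _))
    · exact (hC ⟨z, hz, rfl⟩).trans ((le_max_left _ _).trans (le_max_left _ _))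
  choose C hC0 hC using this
  exact ⟨∑ i, C i, Finset.sum_nonneg fun i _ => hC0 i, fun i z hz =>
    ⟨(hC i z hz).1.trans (Finset.single_le_sum (fun i _ => hC0 i) (Finset.mem_univ i)),
    (hC i z hz).2.trans (Finset.single_le_sum (fun i _ => hC0 i) (Finset.mem_univ i))⟩⟩

theorem norm_le (hV : WValStmt) (hF : FormsStmt) (h2 : 2 ≤ d)
    {w : Fin S.N → Cm d → Matrix (Fin d) (Fin d) ℂ}
    {α : Fin S.N → Cm d → L2 d} (hk : Kah S w) (h : Cl2 S α) (hr : Real2 S α) {C : ℝ}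
    (hC : ∀ i, ∀ z ∈ closedBall (0 : Cm d) 1,
      8 * d ^ 2 * ((w i z).trace.re ^ 2 / (w i z).det.re) ≤ C) :
    rI S (fun i z => ‖α i z‖ ^ 2) ≤
      C * (rI S (fun i z => qq (w i z) (c20 (α i z)) (c20 (α i z))) +
        rI S (fun i z => NN (w i z) (α i z))) := by
  have hd0 : 0 < d := by omega
  have c0 : ∀ i, ContinuousOn (fun z => ‖α i z‖ ^ 2) (ball 0 3) := fun i =>
    cont_nm fun z hz => h.smooth i z hz trivial
  have c1 : ∀ i, ContinuousOn (fun z => qq (w i z) (c20 (α i z)) (c20 (α i z))) (ball 0 3) :=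
    fun i => cont_of fun z hz => sm_qq hk i hz (mc_c20 (h.smooth i z hz trivial))
      (mc_c20 (h.smooth i z hz trivial))
  have c2 : ∀ i, ContinuousOn (fun z => NN (w i z) (α i z)) (ball 0 3) :=
    cont_NN hF hd0 hk h
  have c3 : ∀ i, ContinuousOn (fun z => C * (qq (w i z) (c20 (α i z)) (c20 (α i z)) +
    NN (w i z) (α i z))) (ball 0 3) := fun i => continuousOn_const.mul ((c1 i).add (c2 i))
  rw [← rI_add c1 c2, ← rI_mul]
  refine rI_mono c0 c3 fun i z hz => ?_
  obtain ⟨p1, p2⟩ := pt_bd hV h2 (hk.posDef i z (b13 hz)) (h.alt i z (b13 hz) trivial)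
    (hr i z (b13 hz))
  refine p2.trans (mul_le_mul_of_nonneg_right (hC i z hz) (add_nonneg ?_ p1))
  exact (qq_bd (hk.posDef i z (b13 hz)) (c20 (α i z))).1

/-- The quantities of the approximation. -/
theorem approx' [PreconnectedSpace E] (hW : WLinStmt) (hV : WValStmt) (hF : FormsStmt)
    (hS : WStokesStmt) (hT : HTStmt) (hL : LapStmt) (h2 : 2 ≤ d)
    {w : Fin S.N → Cm d → Matrix (Fin d) (Fin d) ℂ} (hk : Kah S w) {α : Fin S.N → Cm d → L2 d}
    (h : Cl2 S α) (hr : Real2 S α) (h0 : bW S α (kw w) (kw w) = 0)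
    (ho : ∀ s, Hol2 S s → bW S α (ts s) (kw w) = 0) {C : ℝ} (hC0 : 0 ≤ C)
    (hC : ∀ i, ∀ z ∈ closedBall (0 : Cm d) 1,
      (w i z).det.re * ((w i z)⁻¹).trace.re ^ 2 ≤ C ∧
        8 * d ^ 2 * ((w i z).trace.re ^ 2 / (w i z).det.re) ≤ C) {ε : ℝ} (hε : 0 < ε) :
    ((d - 2).factorial : ℝ)⁻¹ * (bW S α α (kw w)).re ≤ (1 + 4 * C) * ε ∧
      ∃ β : Fin S.N → Cm d → L1 d, F1On S univ β ∧
      rI S (fun i z => ‖α i z - d1 (β i) z‖ ^ 2) ≤ C * (C * ε + ((1 + 4 * C) * ε -
        ((d - 2).factorial : ℝ)⁻¹ * (bW S α α (kw w)).re)) := by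
  have hd0 : 0 < d := by omega
  have hc := cl2_kw hF hd0 hk
  obtain ⟨β, b1, b2, b3, b4⟩ := approx hW hV hF hS hT hL h2 hk h hr h0 ho
    (fun i z hz => (hC i z hz).1) hC0 hε
  have hcl := cl2_sub h (cl2_d1 b1)
  have e := int_NN hF hd0 hk hcl
  rw [bW_sq hW hS h2 h hc b1] at e
  have h1 := nn_nonneg hV hF h2 hk hcl b2
  have h3 := norm_le hV hF h2 hk hcl b2 (fun i z hz => (hC i z hz).2)
  refine ⟨by linarith, β, b1, h3.trans ?_⟩
  refine mul_le_mul_of_nonneg_left ?_ hC0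
  linarith

end

/-- **HI**, the Hodge index theorem on `H²` in dimension `d`, from HT, `LapStmt`, `L2ExStmt`, W1,
W3, I0, I1. -/
theorem hodgeIndex (hW : WLinStmt) (hV : WValStmt) (hF : FormsStmt) (hS : WStokesStmt)
    (hT : HTStmt) (hL : LapStmt) (hE : L2ExStmt) : HIStmt := by
  intro d E Γ _ _ _ _ _ _ _ S w α h2 hk h hr h0 ho
  have hfac : 0 < ((d - 2).factorial : ℝ)⁻¹ := by positivity
  obtain ⟨C, hC0, hC⟩ := exists_C hk
  refine ⟨?_, fun hz => ?_⟩
  · have hle : ((d - 2).factorial : ℝ)⁻¹ * (bW S α α (kw w)).re ≤ 0 := by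
      refine le_of_forall_pos_le_add fun ε hε => ?_
      have h9 : 0 < 1 + 4 * C := by positivity
      have := (approx' hW hV hF hS hT hL h2 hk h hr h0 ho hC0 hC
        (show 0 < ε / (1 + 4 * C) by positivity)).1
      have h1 : (1 + 4 * C) * (ε / (1 + 4 * C)) = ε := by field_simp
      linarith
    by_contra hneg
    have := mul_pos hfac (not_le.1 hneg)
    linarith
  · refine hE d E Γ S α (by omega) h fun ε hε => ?_
    have h9 : 0 < 1 + C * (C + (1 + 4 * C)) := by positivity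
    obtain ⟨-, β, b1, b2⟩ := approx' hW hV hF hS hT hL h2 hk h hr h0 ho hC0 hC
      (show 0 < ε / (1 + C * (C + (1 + 4 * C))) by positivity)
    refine ⟨β, b1, lt_of_le_of_lt b2 ?_⟩
    rw [hz]
    have h1 : (1 + C * (C + (1 + 4 * C))) * (ε / (1 + C * (C + (1 + 4 * C)))) = ε := by
      field_simp
    have h3 : 0 < ε / (1 + C * (C + (1 + 4 * C))) := by positivity
    nlinarith

end Vale.Agent.P281.H624.HK
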