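import Vale.Agent.P281.H624.HK.Pot
import Vale.Agent.P281.H83.HK.Spec
import Mathlib.Analysis.Matrix.Order

/-!
# P281, project T-HK, block HI (helper624): pointwise bounds
-/

open Set Filter Metric MeasureTheory Vale.Agent.P272.K
open scoped Topology ContDiff ComplexConjugate ComplexOrder Matrix MatrixOrder

noncomputable section

namespace Vale.Agent.P281.H624.HK

open Vale.Agent.P281.H64.TK Vale.Agent.P281.H64.TK.TS Vale.Agent.P272.K.C2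
open Vale.Agent.P281.H83.HK Vale.Agent.P281.H624.TS

variable {d : ℕ}

/-- The square of the Frobenius norm. -/
def fro (A : Matrix (Fin d) (Fin d) ℂ) : ℝ := ∑ i, ∑ j, ‖A i j‖ ^ 2

theorem fro_nonneg (A : Matrix (Fin d) (Fin d) ℂ) : 0 ≤ fro A :=
  Finset.sum_nonneg fun _ _ => Finset.sum_nonneg fun _ _ => sq_nonneg _

theorem fro_eq (A : Matrix (Fin d) (Fin d) ℂ) : (Aᴴ * A).trace = ((fro A : ℝ) : ℂ) := by
  simp only [fro, Matrix.trace, Matrix.diag, Matrix.mul_apply, Matrix.conjTranspose_apply,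
    Complex.ofReal_sum, Complex.star_def]
  rw [Finset.sum_comm]
  refine Finset.sum_congr rfl fun i _ => Finset.sum_congr rfl fun j _ => ?_
  rw [← Complex.normSq_eq_norm_sq, Complex.normSq_eq_conj_mul_self]

theorem fro_H (A : Matrix (Fin d) (Fin d) ℂ) : fro Aᴴ = fro A := by
  simp only [fro, Matrix.conjTranspose_apply, norm_star]
  exact Finset.sum_comm

theorem fro_T (A : Matrix (Fin d) (Fin d) ℂ) : fro Aᵀ = fro A := by
  simp only [fro, Matrix.transpose_apply]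
  exact Finset.sum_comm

theorem fro_eq' (A : Matrix (Fin d) (Fin d) ℂ) : (A * Aᴴ).trace = ((fro A : ℝ) : ℂ) := by
  have := fro_eq Aᴴ
  rw [Matrix.conjTranspose_conjTranspose, fro_H] at this
  exact this

theorem fro_mul (A B : Matrix (Fin d) (Fin d) ℂ) : fro (A * B) ≤ fro A * fro B := by
  have h : ∀ i j, ‖(A * B) i j‖ ^ 2 ≤ (∑ k, ‖A i k‖ ^ 2) * ∑ k, ‖B k j‖ ^ 2 := by
    intro i j
    have h1 : ‖(A * B) i j‖ ≤ ∑ k, ‖A i k‖ * ‖B k j‖ := by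
      rw [Matrix.mul_apply]
      exact (norm_sum_le _ _).trans (Finset.sum_le_sum fun k _ => (norm_mul _ _).le)
    calc ‖(A * B) i j‖ ^ 2 ≤ (∑ k, ‖A i k‖ * ‖B k j‖) ^ 2 :=
          pow_le_pow_left₀ (norm_nonneg _) h1 2
      _ ≤ _ := Finset.sum_mul_sq_le_sq_mul_sq _ _ _
  calc fro (A * B) ≤ ∑ i, ∑ j, (∑ k, ‖A i k‖ ^ 2) * ∑ k, ‖B k j‖ ^ 2 :=
        Finset.sum_le_sum fun i _ => Finset.sum_le_sum fun j _ => h i j
    _ = fro A * fro B := by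
        have e : fro B = ∑ j, ∑ k, ‖B k j‖ ^ 2 := Finset.sum_comm
        rw [e]
        simp only [fro, Finset.sum_mul_sum]

theorem exists_root {w : Matrix (Fin d) (Fin d) ℂ} (hw : w.PosDef) :
    ∃ B : Matrix (Fin d) (Fin d) ℂ, w = Bᴴ * B ∧ B⁻¹ * B = 1 ∧ B * B⁻¹ = 1 ∧
      fro B = w.trace.re ∧ w⁻¹ = B⁻¹ * (B⁻¹)ᴴ ∧ fro B⁻¹ = (w⁻¹).trace.re := by
  obtain ⟨B, hB'⟩ := CStarAlgebra.nonneg_iff_eq_star_mul_self.1
    (Matrix.nonneg_iff_posSemidef.2 hw.posSemidef)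
  have hB : w = Bᴴ * B := hB'
  have hd : w.det ≠ 0 := hw.det_pos.ne'
  have hdB : B.det ≠ 0 := by
    intro h
    apply hd
    rw [hB, Matrix.det_mul, h, mul_zero]
  have hu : IsUnit B.det := isUnit_iff_ne_zero.2 hdB
  have e1 : w⁻¹ = B⁻¹ * (B⁻¹)ᴴ := by
    rw [hB, Matrix.mul_inv_rev, Matrix.conjTranspose_nonsing_inv]
  refine ⟨B, hB, Matrix.nonsing_inv_mul _ hu, Matrix.mul_nonsing_inv _ hu, ?_, e1, ?_⟩
  · rw [hB, fro_eq, Complex.ofReal_re]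
  · rw [e1, fro_eq', Complex.ofReal_re]

/-- `Σ |H_jk|² ≤ (tr w)² tr ((w⁻¹ H)²)`. -/
theorem fro_le {w H : Matrix (Fin d) (Fin d) ℂ} (hw : w.PosDef) (hH : H.IsHermitian) :
    0 ≤ (w⁻¹ * H * (w⁻¹ * H)).trace.re ∧
      (w⁻¹ * H * (w⁻¹ * H)).trace = (((w⁻¹ * H * (w⁻¹ * H)).trace.re : ℝ) : ℂ) ∧
      fro H ≤ w.trace.re ^ 2 * (w⁻¹ * H * (w⁻¹ * H)).trace.re := by
  obtain ⟨B, -, b1, b2, b3, b4, -⟩ := exists_root hw
  set C := B⁻¹ with hC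
  have b1' : Bᴴ * Cᴴ = 1 := by
    rw [← Matrix.conjTranspose_mul, b1, Matrix.conjTranspose_one]
  set M := Cᴴ * H * C with hM
  have hMH : Mᴴ = M := by
    rw [hM, Matrix.conjTranspose_mul, Matrix.conjTranspose_mul, hH.eq,
      Matrix.conjTranspose_conjTranspose, Matrix.mul_assoc]
  have e1 : (w⁻¹ * H * (w⁻¹ * H)).trace = (((fro M : ℝ) : ℂ)) := by
    rw [← fro_eq, hMH, b4, hM]
    have : C * Cᴴ * H * (C * Cᴴ * H) = C * (Cᴴ * H * C * (Cᴴ * H)) := by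
      simp only [Matrix.mul_assoc]
    rw [this, Matrix.trace_mul_comm]
    simp only [Matrix.mul_assoc]
  have e2 : H = Bᴴ * M * B := by
    rw [hM]
    have : Bᴴ * (Cᴴ * H * C) * B = (Bᴴ * Cᴴ) * H * (C * B) := by
      simp only [Matrix.mul_assoc]
    rw [this, b1', b1, one_mul, mul_one]
  have e5 : (w⁻¹ * H * (w⁻¹ * H)).trace.re = fro M := by
    rw [e1, Complex.ofReal_re]
  refine ⟨by rw [e5]; exact fro_nonneg _, by rw [e5, e1], ?_⟩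
  rw [e5, ← b3]
  calc fro H = fro (Bᴴ * M * B) := by rw [← e2]
    _ ≤ fro (Bᴴ * M) * fro B := fro_mul _ _
    _ ≤ (fro Bᴴ * fro M) * fro B := mul_le_mul_of_nonneg_right (fro_mul _ _) (fro_nonneg _)
    _ = fro B ^ 2 * fro M := by rw [fro_H]; ring

/-- The Hermitian form on `(2,0)`-forms. -/
theorem q20 {w : Matrix (Fin d) (Fin d) ℂ} (hw : w.PosDef) (u : Matrix (Fin d) (Fin d) ℂ) :
    ∃ m : ℝ, 0 ≤ m ∧ (w⁻¹ * u * (w⁻¹)ᵀ * uᴴ).trace = (m : ℂ) ∧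
      fro u ≤ w.trace.re ^ 2 * m ∧ m ≤ (w⁻¹).trace.re ^ 2 * fro u := by
  obtain ⟨B, -, b1, b2, b3, b4, b5⟩ := exists_root hw
  set C := B⁻¹ with hC
  have b1' : Bᴴ * Cᴴ = 1 := by
    rw [← Matrix.conjTranspose_mul, b1, Matrix.conjTranspose_one]
  have b2' : Cᴴᵀ * Bᴴᵀ = 1 := by
    rw [← Matrix.transpose_mul, b1', Matrix.transpose_one]
  have b6 : Cᴴᵀ = Cᵀᴴ := rfl
  have b7 : Bᴴᵀ = Bᵀᴴ := rfl
  refine ⟨fro (Cᴴ * u * Cᴴᵀ), fro_nonneg _, ?_, ?_, ?_⟩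
  · rw [← fro_eq', b4]
    have e : (Cᴴ * u * Cᴴᵀ)ᴴ = Cᵀ * uᴴ * C := by
      rw [Matrix.conjTranspose_mul, Matrix.conjTranspose_mul, Matrix.conjTranspose_conjTranspose,
        b6, Matrix.conjTranspose_conjTranspose, Matrix.mul_assoc]
    rw [e, Matrix.transpose_mul]
    have e1 : C * Cᴴ * u * (Cᴴᵀ * Cᵀ) * uᴴ = C * (Cᴴ * u * Cᴴᵀ * Cᵀ * uᴴ) := by
      simp only [Matrix.mul_assoc]
    rw [e1, Matrix.trace_mul_comm]
    simp only [Matrix.mul_assoc]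
  · have e2 : u = Bᴴ * (Cᴴ * u * Cᴴᵀ) * Bᴴᵀ := by
      have : Bᴴ * (Cᴴ * u * Cᴴᵀ) * Bᴴᵀ = (Bᴴ * Cᴴ) * u * (Cᴴᵀ * Bᴴᵀ) := by
        simp only [Matrix.mul_assoc]
      rw [this, b1', b2', one_mul, mul_one]
    rw [← b3]
    calc fro u = fro (Bᴴ * (Cᴴ * u * Cᴴᵀ) * Bᴴᵀ) := by rw [← e2]
      _ ≤ fro (Bᴴ * (Cᴴ * u * Cᴴᵀ)) * fro Bᴴᵀ := fro_mul _ _
      _ ≤ (fro Bᴴ * fro (Cᴴ * u * Cᴴᵀ)) * fro Bᴴᵀ :=
        mul_le_mul_of_nonneg_right (fro_mul _ _) (fro_nonneg _)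
      _ = fro B ^ 2 * fro (Cᴴ * u * Cᴴᵀ) := by rw [fro_T, fro_H]; ring
  · rw [← b5]
    calc fro (Cᴴ * u * Cᴴᵀ) ≤ fro (Cᴴ * u) * fro Cᴴᵀ := fro_mul _ _
      _ ≤ (fro Cᴴ * fro u) * fro Cᴴᵀ :=
        mul_le_mul_of_nonneg_right (fro_mul _ _) (fro_nonneg _)
      _ = fro C ^ 2 * fro u := by rw [fro_T, fro_H]; ring

theorem sum_sq (A : Matrix (Fin d) (Fin d) ℂ) : (∑ j, ∑ k, ‖A j k‖) ^ 2 ≤ d ^ 2 * fro A := by
  have h1 : (∑ j, ∑ k, ‖A j k‖) ^ 2 ≤ d * ∑ j, (∑ k, ‖A j k‖) ^ 2 := by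
    have := sq_sum_le_card_mul_sum_sq (s := (Finset.univ : Finset (Fin d)))
      (f := fun j => ∑ k, ‖A j k‖)
    simpa using this
  have h2 : ∀ j, (∑ k, ‖A j k‖) ^ 2 ≤ d * ∑ k, ‖A j k‖ ^ 2 := fun j => by
    have := sq_sum_le_card_mul_sum_sq (s := (Finset.univ : Finset (Fin d)))
      (f := fun k => ‖A j k‖)
    simpa using this
  calc (∑ j, ∑ k, ‖A j k‖) ^ 2 ≤ d * ∑ j, (∑ k, ‖A j k‖) ^ 2 := h1
    _ ≤ d * ∑ j, (d * ∑ k, ‖A j k‖ ^ 2) :=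
        mul_le_mul_of_nonneg_left (Finset.sum_le_sum fun j _ => h2 j) (by positivity)
    _ = d ^ 2 * fro A := by
        rw [← Finset.mul_sum, fro]
        ring

theorem op_bd (u H : Matrix (Fin d) (Fin d) ℂ) :
    ‖tf u + cj (tf u) + kf H‖ ^ 2 ≤ 8 * d ^ 2 * (fro u + fro H) := by
  set D : ℝ := 2 * (∑ j, ∑ k, ‖u j k‖) + ∑ j, ∑ k, ‖H j k‖ with hD
  have D0 : 0 ≤ D := by positivity
  have hu : ∀ (u : Cm d) (j : Fin d), ‖u j‖ ≤ ‖u‖ := fun u j => norm_le_pi_norm u j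
  have hm : ∀ (u v : Cm d) (j k : Fin d), ‖u j‖ * ‖v k‖ ≤ ‖u‖ * ‖v‖ := fun u v j k =>
    mul_le_mul (hu u j) (hu v k) (norm_nonneg _) (norm_nonneg _)
  have b1 : ∀ x y : Cm d, ‖tf u x y‖ ≤ (∑ j, ∑ k, ‖u j k‖) * (‖x‖ * ‖y‖) := by
    intro x y
    rw [tf_apply, Finset.sum_mul]
    refine (norm_sum_le _ _).trans (Finset.sum_le_sum fun j _ => ?_)
    rw [Finset.sum_mul]
    refine (norm_sum_le _ _).trans (Finset.sum_le_sum fun k _ => ?_)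
    rw [norm_mul, norm_mul]
    exact mul_le_mul_of_nonneg_left (hm x y j k) (norm_nonneg _)
  have b2 : ∀ x y : Cm d, ‖kf H x y‖ ≤ (∑ j, ∑ k, ‖H j k‖) * (‖x‖ * ‖y‖) := by
    intro x y
    rw [kf_apply, norm_mul, Finset.sum_mul]
    have e0 : ‖Complex.I / 2‖ = 1 / 2 := by simp
    rw [e0]
    have e1 : ‖∑ j, ∑ k, H j k * (x j * conj (y k) - y j * conj (x k))‖ ≤
        ∑ j, ∑ k, ‖H j k‖ * (2 * (‖x‖ * ‖y‖)) := by
      refine (norm_sum_le _ _).trans (Finset.sum_le_sum fun j _ =>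
        (norm_sum_le _ _).trans (Finset.sum_le_sum fun k _ => ?_))
      rw [norm_mul]
      refine mul_le_mul_of_nonneg_left ?_ (norm_nonneg _)
      refine (norm_sub_le _ _).trans ?_
      rw [norm_mul, norm_mul, RCLike.norm_conj, RCLike.norm_conj]
      linarith [hm x y j k, hm y x j k, mul_comm ‖x‖ ‖y‖]
    calc 1 / 2 * ‖∑ j, ∑ k, H j k * (x j * conj (y k) - y j * conj (x k))‖
        ≤ 1 / 2 * ∑ j, ∑ k, ‖H j k‖ * (2 * (‖x‖ * ‖y‖)) :=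
          mul_le_mul_of_nonneg_left e1 (by norm_num)
      _ = _ := by
          simp only [Finset.mul_sum, Finset.sum_mul]
          exact Finset.sum_congr rfl fun j _ => Finset.sum_congr rfl fun k _ => by ring
  have b3 : ‖tf u + cj (tf u) + kf H‖ ≤ D := by
    refine ContinuousLinearMap.opNorm_le_bound _ D0 fun x => ?_
    refine ContinuousLinearMap.opNorm_le_bound _ (by positivity) fun y => ?_
    rw [add_apply, add_apply, add_apply, add_apply, cj_apply]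
    refine (norm_add_le _ _).trans ?_
    refine (add_le_add (norm_add_le _ _) (b2 x y)).trans ?_
    rw [RCLike.norm_conj, hD]
    have := b1 x y
    have e : (2 * (∑ j, ∑ k, ‖u j k‖) + ∑ j, ∑ k, ‖H j k‖) * ‖x‖ * ‖y‖ =
        (∑ j, ∑ k, ‖u j k‖) * (‖x‖ * ‖y‖) + (∑ j, ∑ k, ‖u j k‖) * (‖x‖ * ‖y‖) +
          (∑ j, ∑ k, ‖H j k‖) * (‖x‖ * ‖y‖) := by ring
    rw [e]
    linarith
  have b0 : 0 ≤ ‖tf u + cj (tf u) + kf H‖ := by
    have := norm_nonneg (E := Cm d →L[ℝ] Cm d →L[ℝ] ℂ) (tf u + cj (tf u) + kf H)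
    exact this
  have s1 := sum_sq u
  have s2 := sum_sq H
  have f1 := fro_nonneg u
  have f2 := fro_nonneg H
  have hd : (0 : ℝ) ≤ (d : ℝ) ^ 2 := by positivity
  calc ‖tf u + cj (tf u) + kf H‖ ^ 2 ≤ D ^ 2 := pow_le_pow_left₀ b0 b3 2
    _ ≤ 8 * (∑ j, ∑ k, ‖u j k‖) ^ 2 + 2 * (∑ j, ∑ k, ‖H j k‖) ^ 2 := by
        rw [hD]
        nlinarith [sq_nonneg (2 * (∑ j, ∑ k, ‖u j k‖) - ∑ j, ∑ k, ‖H j k‖)]
    _ ≤ 8 * d ^ 2 * (fro u + fro H) := by nlinarith [mul_nonneg hd f2]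

theorem h11_eq (α : L2 d) : h11 α = hm α := by
  rw [h11, hm, neg_mul]

theorem trc_real {w H : Matrix (Fin d) (Fin d) ℂ} (hw : w.IsHermitian) (hH : H.IsHermitian) :
    (w⁻¹ * H).trace = (((w⁻¹ * H).trace.re : ℝ) : ℂ) := by
  have e : conj (w⁻¹ * H).trace = (w⁻¹ * H).trace := by
    have : conj (w⁻¹ * H).trace = (w⁻¹ * H)ᴴ.trace := by
      rw [Matrix.trace_conjTranspose]; rfl
    rw [this, Matrix.conjTranspose_mul, hH.eq, Matrix.conjTranspose_nonsing_inv, hw.eq,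
      Matrix.trace_mul_comm]
  exact (Complex.conj_eq_iff_real.1 e).elim fun r hr => by rw [hr]; simp

/-- The trace of the `(1,1)`-part. -/
def tw (w : Matrix (Fin d) (Fin d) ℂ) (α : L2 d) : ℂ := (w⁻¹ * hm α).trace

/-- The square of the norm of the `(2,0)`-part, as a density. -/
def qq (w u v : Matrix (Fin d) (Fin d) ℂ) : ℝ := (w.det * (w⁻¹ * u * (w⁻¹)ᵀ * vᴴ).trace).re

/-- The density of `|α₀|²`. -/
def NN (w : Matrix (Fin d) (Fin d) ℂ) (α : L2 d) : ℝ :=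
  ‖tw w α‖ ^ 2 * w.det.re + 4 * qq w (c20 α) (c20 α) -
    ((d - 2).factorial : ℝ)⁻¹ * (W3 α α (kf w)).re

theorem det_real {w : Matrix (Fin d) (Fin d) ℂ} (hw : w.PosDef) :
    0 < w.det.re ∧ w.det = ((w.det.re : ℝ) : ℂ) := by
  have hd : 0 < w.det := hw.det_pos
  refine ⟨(Complex.pos_iff.1 hd).1, ?_⟩
  apply Complex.ext
  · simp
  · simpa using (Complex.pos_iff.1 hd).2.symm

theorem qq_bd {w : Matrix (Fin d) (Fin d) ℂ} (hw : w.PosDef) (u : Matrix (Fin d) (Fin d) ℂ) :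
    0 ≤ qq w u u ∧ fro u ≤ w.trace.re ^ 2 / w.det.re * qq w u u ∧
      qq w u u ≤ w.det.re * (w⁻¹).trace.re ^ 2 * fro u := by
  obtain ⟨m, m0, m1, m2, m3⟩ := q20 hw u
  obtain ⟨d1, d2⟩ := det_real hw
  have e : qq w u u = w.det.re * m := by
    rw [qq, m1, d2, ← Complex.ofReal_mul, Complex.ofReal_re, Complex.ofReal_re]
  rw [e]
  refine ⟨by positivity, ?_, ?_⟩
  · have : w.trace.re ^ 2 / w.det.re * (w.det.re * m) = w.trace.re ^ 2 * m := by field_simp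
    rw [this]
    exact m2
  · rw [mul_assoc]
    exact mul_le_mul_of_nonneg_left m3 d1.le

theorem c02_real' {α : L2 d} (hr : ∀ u v, (α u v).im = 0) : (c02 α)ᵀ = (c20 α)ᴴ := by
  ext j k
  rw [Matrix.transpose_apply, Matrix.conjTranspose_apply, c02_real hr]
  rfl

theorem pt_bd (hV : WValStmt) (h2 : 2 ≤ d) {w : Matrix (Fin d) (Fin d) ℂ} (hw : w.PosDef)
    {α : L2 d} (ha : ∀ u v, α u v = - α v u) (hr : ∀ u v, (α u v).im = 0) :
    0 ≤ NN w α ∧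
      ‖α‖ ^ 2 ≤ 8 * d ^ 2 * (w.trace.re ^ 2 / w.det.re) * (qq w (c20 α) (c20 α) + NN w α) := by
  obtain ⟨d1, d2⟩ := det_real hw
  obtain ⟨q1, q2, -⟩ := qq_bd hw (c20 α)
  have hH := hm_herm ha hr
  obtain ⟨f0, f1, f2⟩ := fro_le hw hH
  have hT : ‖tw w α‖ ^ 2 = (w⁻¹ * hm α).trace.re ^ 2 := by
    rw [tw, trc_real hw.1 hH, Complex.norm_real, Complex.ofReal_re]
    exact sq_abs _
  have hF : (0 : ℝ) < ((d - 2).factorial : ℝ) := by positivity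
  have key : NN w α = w.det.re * (w⁻¹ * hm α * (w⁻¹ * hm α)).trace.re := by
    have h3 := hV d α α w h2 ha ha hw
    rw [h11_eq, c02_real' hr, f1, trc_real hw.1 hH] at h3
    have h4 : w.det * (w⁻¹ * c20 α * (w⁻¹)ᵀ * (c20 α)ᴴ).trace =
        ((qq w (c20 α) (c20 α) : ℝ) : ℂ) := by
      obtain ⟨m, m0, m1, m2, m3⟩ := q20 hw (c20 α)
      rw [qq, m1, d2, ← Complex.ofReal_mul, Complex.ofReal_re]
    have h5 : W3 α α (kf w) = ((((d - 2).factorial : ℝ) * (w.det.re *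
        ((w⁻¹ * hm α).trace.re ^ 2 - (w⁻¹ * hm α * (w⁻¹ * hm α)).trace.re) +
          4 * qq w (c20 α) (c20 α)) : ℝ) : ℂ) := by
      rw [h3]
      push_cast
      rw [← h4, ← d2]
      ring
    rw [NN, hT, h5, Complex.ofReal_re]
    field_simp
    ring
  refine ⟨by rw [key]; positivity, ?_⟩
  have e : w.trace.re ^ 2 / w.det.re * NN w α =
      w.trace.re ^ 2 * (w⁻¹ * hm α * (w⁻¹ * hm α)).trace.re := by
    rw [key]
    field_simp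
  have h6 := op_bd (c20 α) (hm α)
  rw [← real_eq ha hr] at h6
  have hd : (0 : ℝ) ≤ 8 * (d : ℝ) ^ 2 := by positivity
  calc ‖α‖ ^ 2 ≤ 8 * d ^ 2 * (fro (c20 α) + fro (hm α)) := h6
    _ ≤ 8 * d ^ 2 * (w.trace.re ^ 2 / w.det.re * qq w (c20 α) (c20 α) +
          w.trace.re ^ 2 / w.det.re * NN w α) := by
        rw [e]
        exact mul_le_mul_of_nonneg_left (add_le_add q2 f2) hd
    _ = _ := by ring

end Vale.Agent.P281.H624.HK
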