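import Vale.Agent.P281.H624.HK.HI
import Vale.Agent.P281.H864.HK.Plug
import Vale.Agent.P281.H747.HK.WVal
import Vale.Agent.P281.H406.HK.Forms
import Vale.Agent.P281.H89.HK.HTFin
import Vale.Agent.P281.H399.TS.Lap
import Vale.Agent.P281.H295.TS.C6
import Vale.Agent.P281.H559.TS.A1
import Vale.Agent.P281.H352.TS.A3
import Vale.Agent.P281.H702.TS.A2
import Vale.Agent.P281.H702.TS.A4a
import Vale.Agent.P281.H89.TS.A4b

/-!
# P281, project T-HK, block HI (helper624): all inputs plugged
-/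

namespace Vale.Agent.P281.H624.HK

open Vale.Agent.P281

theorem hi : H83.HK.HIStmt :=
  hodgeIndex H864.HK.wLin H747.HK.wVal H406.HK.forms H864.HK.wStokes H89.HK.ht H399.TS.lapStmt
    (H295.TS.l2Ex H559.TS.good_stmt (H702.TS.coEx H352.TS.poinStmt)
      (H89.TS.coCob H352.TS.poinStmt H702.TS.part))

end Vale.Agent.P281.H624.HK
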