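import Vale.Agent.P281.H624.HK.Bd
import Vale.Agent.P272.K.C2.Mat

/-!
# P281, project T-HK, block HI (helper624): `W3`, change of the types, smoothness
-/

open Set Filter Metric MeasureTheory Vale.Agent.P272.K
open scoped Topology ContDiff ComplexConjugate ComplexOrder Matrix

noncomputable section

namespace Vale.Agent.P281.H624.HK

open Vale.Agent.P281.H64.TK Vale.Agent.P281.H64.TK.TS Vale.Agent.P272.K.C2
open Vale.Agent.P281.H83.HK Vale.Agent.P281.H624.TS

variable {d : ℕ}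

/-! ### `W3` -/

theorem abc_upd (h2 : 2 ≤ d) (a x b c : L2 d) :
    abc a b c = Function.update (abc x b c) ⟨0, by omega⟩ a := by
  funext i
  by_cases h : i = ⟨0, by omega⟩
  · subst h
    simp [abc]
  · have h' : i.val ≠ 0 := fun h' => h (Fin.ext h')
    rw [Function.update_of_ne h]
    simp [abc, h']

theorem W3_add (hW : WLinStmt) (h2 : 2 ≤ d) (a a' b c : L2 d) :
    W3 (a + a') b c = W3 a b c + W3 a' b c := by
  have h := (hW d (abc 0 b c) ⟨0, by omega⟩ a a' 0 1).1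
  rw [← abc_upd h2, ← abc_upd h2, ← abc_upd h2] at h
  exact h

theorem W3_smul (hW : WLinStmt) (h2 : 2 ≤ d) (r : ℂ) (a b c : L2 d) :
    W3 (r • a) b c = r * W3 a b c := by
  have h := (hW d (abc 0 b c) ⟨0, by omega⟩ a 0 r 1).2.1
  rw [← abc_upd h2, ← abc_upd h2] at h
  exact h

theorem W3_sub (hW : WLinStmt) (h2 : 2 ≤ d) (a a' b c : L2 d) :
    W3 (a - a') b c = W3 a b c - W3 a' b c := by
  have e : a - a' = a + (-1 : ℂ) • a' := by
    ext u v
    simp only [sub_apply, add_apply, smul_apply, smul_eq_mul]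
    ring
  rw [e, W3_add hW h2, W3_smul hW h2]
  ring

theorem W3_comm (hW : WLinStmt) (h2 : 2 ≤ d) (a b c : L2 d) : W3 a b c = W3 b a c := by
  have h := (hW d (abc b a c) ⟨0, by omega⟩ 0 0 0
    (Equiv.swap ⟨0, by omega⟩ ⟨1, by omega⟩)).2.2
  rw [W3, W3, ← h]
  congr 1
  funext i
  rw [Function.comp_apply]
  by_cases h0 : i = ⟨0, by omega⟩
  · subst h0
    simp [abc]
  · by_cases h1 : i = ⟨1, by omega⟩
    · subst h1
      simp [abc]
    · have h0' : i.val ≠ 0 := fun h' => h0 (Fin.ext h')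
      have h1' : i.val ≠ 1 := fun h' => h1 (Fin.ext h')
      rw [Equiv.swap_apply_of_ne_of_ne h0 h1]
      simp [abc, h0', h1']

theorem W3_sub_right (hW : WLinStmt) (h2 : 2 ≤ d) (a b b' c : L2 d) :
    W3 a (b - b') c = W3 a b c - W3 a b' c := by
  rw [W3_comm hW h2 a (b - b'), W3_sub hW h2, W3_comm hW h2 b a, W3_comm hW h2 b' a]

theorem ev_sm {α : Cm d → L2 d} {z : Cm d} (h : ContDiffAt ℝ ∞ α z) (u v : Cm d) :
    ContDiffAt ℝ ∞ (fun y => α y u v) z :=
  (ContDiffAt.clm_apply (𝕜 := ℝ) (E := Cm d) (F := Cm d) (G := L1 d) h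
    contDiffAt_const).clm_apply contDiffAt_const

theorem W3_sm {a b c : Cm d → L2 d} {z : Cm d} (ha : ContDiffAt ℝ ∞ a z)
    (hb : ContDiffAt ℝ ∞ b z) (hc : ContDiffAt ℝ ∞ c z) :
    ContDiffAt ℝ ∞ (fun y => W3 (a y) (b y) (c y)) z := by
  simp only [W3, W]
  refine contDiffAt_const.mul (ContDiffAt.sum fun π _ => contDiffAt_const.mul
    (contDiffAt_prod fun i _ => ?_))
  have e : ∀ u v, ContDiffAt ℝ ∞ (fun y => abc (a y) (b y) (c y) i u v) z := by
    intro u v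
    by_cases h0 : i.val = 0
    · simp only [abc, h0, if_true]
      exact ev_sm ha u v
    · by_cases h1 : i.val = 1
      · simp only [abc, h1, if_true]
        exact ev_sm hb u v
      · simp only [abc, h0, h1, if_false]
        exact ev_sm hc u v
  exact e _ _

/-! ### Types -/

theorem hm_add (a b : L2 d) : hm (a + b) = hm a + hm b := by
  ext j k
  simp only [hm, c11, Matrix.smul_apply, Matrix.of_apply, Matrix.add_apply, add_apply, smul_eq_mul]
  ring

theorem hm_sub (a b : L2 d) : hm (a - b) = hm a - hm b := by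
  ext j k
  simp only [hm, c11, Matrix.smul_apply, Matrix.of_apply, Matrix.sub_apply, sub_apply, smul_eq_mul]
  ring

theorem c20_sub (a b : L2 d) : c20 (a - b) = c20 a - c20 b := by
  ext j k
  simp only [c20, Matrix.of_apply, Matrix.sub_apply, sub_apply]
  ring

theorem hm_cj (m : Matrix (Fin d) (Fin d) ℂ) : hm (cj (tf m)) = 0 := by
  ext j k
  simp only [hm, c11, Matrix.smul_apply, Matrix.of_apply, Matrix.zero_apply, cj_apply, rb0, rb1,
    tf_rb, map_mul, map_one, Complex.conj_I, smul_eq_mul]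
  linear_combination (-(1 : ℂ) / 2 * Complex.I * conj (m j k)) * Complex.I_sq

theorem tf_dot (m : Matrix (Fin d) (Fin d) ℂ) (x y : Cm d) : tf m x y = x ⬝ᵥ m.mulVec y := by
  rw [tf_apply]
  simp only [dotProduct, Matrix.mulVec, Finset.mul_sum]
  exact Finset.sum_congr rfl fun j _ => Finset.sum_congr rfl fun k _ => by ring

theorem kf_dot (w : Matrix (Fin d) (Fin d) ℂ) (x y : Cm d) : kf w x y =
    Complex.I / 2 * (x ⬝ᵥ w.mulVec (fun k => conj (y k)) - y ⬝ᵥ w.mulVec (fun k => conj (x k))) := by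
  rw [kf_apply]
  congr 1
  simp only [dotProduct, Matrix.mulVec, Finset.mul_sum, ← Finset.sum_sub_distrib]
  exact Finset.sum_congr rfl fun j _ => Finset.sum_congr rfl fun k _ => by ring

theorem dot_pull (J K m : Matrix (Fin d) (Fin d) ℂ) (x y : Cm d) :
    x ⬝ᵥ (Jᵀ * m * K).mulVec y = J.mulVec x ⬝ᵥ m.mulVec (K.mulVec y) := by
  rw [← Matrix.mulVec_mulVec, ← Matrix.mulVec_mulVec, Matrix.dotProduct_mulVec,
    Matrix.vecMul_transpose]

theorem tf_pull (J m : Matrix (Fin d) (Fin d) ℂ) (x y : Cm d) :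
    tf (Jᵀ * m * J) x y = tf m (J.mulVec x) (J.mulVec y) := by
  rw [tf_dot, tf_dot, dot_pull]

theorem conj_mulVec (J : Matrix (Fin d) (Fin d) ℂ) (x : Cm d) :
    (J.map conj).mulVec (fun k => conj (x k)) = fun k => conj (J.mulVec x k) := by
  ext k
  simp only [Matrix.mulVec, dotProduct, Matrix.map_apply, map_sum, map_mul]

theorem kf_pull (J w : Matrix (Fin d) (Fin d) ℂ) (x y : Cm d) :
    kf (Jᵀ * w * J.map conj) x y = kf w (J.mulVec x) (J.mulVec y) := by
  rw [kf_dot, kf_dot, dot_pull, dot_pull, conj_mulVec, conj_mulVec]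

theorem hm_change {α α' : L2 d} (J : Matrix (Fin d) (Fin d) ℂ) (ha : ∀ u v, α' u v = - α' v u)
    (hr : ∀ u v, (α' u v).im = 0) (h : ∀ u v, α u v = α' (J.mulVec u) (J.mulVec v)) :
    hm α = Jᵀ * hm α' * J.map conj := by
  have e : α = tf (Jᵀ * c20 α' * J) + cj (tf (Jᵀ * c20 α' * J)) + kf (Jᵀ * hm α' * J.map conj) := by
    ext u v
    rw [h, real_eq ha hr]
    simp only [add_apply, cj_apply]
    rw [tf_pull, kf_pull, ← real_eq ha hr]
  rw [e, hm_add, hm_add, hm_tf, hm_cj, hm_kf, zero_add, zero_add]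

theorem trc_inv {w w' H H' P Q : Matrix (Fin d) (Fin d) ℂ} (hw : w = P * w' * Q)
    (hH : H = P * H' * Q) (h0 : w.det ≠ 0) : (w⁻¹ * H).trace = (w'⁻¹ * H').trace := by
  rw [hw, Matrix.det_mul, Matrix.det_mul] at h0
  have hP : IsUnit P.det := isUnit_iff_ne_zero.2 fun h => h0 (by rw [h]; ring)
  have hQ : IsUnit Q.det := isUnit_iff_ne_zero.2 fun h => h0 (by rw [h]; ring)
  rw [hw, hH, Matrix.mul_inv_rev, Matrix.mul_inv_rev]
  have e : Q⁻¹ * (w'⁻¹ * P⁻¹) * (P * H' * Q) = Q⁻¹ * (w'⁻¹ * (P⁻¹ * P) * H' * Q) := by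
    simp only [Matrix.mul_assoc]
  rw [e, Matrix.nonsing_inv_mul _ hP, mul_one, Matrix.trace_mul_comm, Matrix.mul_assoc,
    Matrix.mul_nonsing_inv _ hQ, mul_one]

/-! ### Smoothness -/

theorem mc_c20 {α : Cm d → L2 d} {z : Cm d} (h : ContDiffAt ℝ ∞ α z) :
    MC ∞ (fun y => c20 (α y)) z := fun j k => by
  simp only [c20, Matrix.of_apply]
  exact ((((ev_sm h _ _).sub (contDiffAt_const.mul (ev_sm h _ _))).sub
    (contDiffAt_const.mul (ev_sm h _ _))).sub (ev_sm h _ _)).div_const _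

theorem mc_hm {α : Cm d → L2 d} {z : Cm d} (h : ContDiffAt ℝ ∞ α z) :
    MC ∞ (fun y => hm (α y)) z := fun j k => by
  simp only [hm, c11, Matrix.of_apply, Matrix.smul_apply, smul_eq_mul]
  exact contDiffAt_const.mul (((((ev_sm h _ _).sub (contDiffAt_const.mul (ev_sm h _ _))).add
    (contDiffAt_const.mul (ev_sm h _ _))).add (ev_sm h _ _)).div_const _)

theorem mc_T {M : Cm d → Matrix (Fin d) (Fin d) ℂ} {z : Cm d} (h : MC ∞ M z) :
    MC ∞ (fun y => (M y)ᵀ) z := fun j k => h k j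

section
variable {E Γ : Type} [TopologicalSpace E] [Group Γ] [MulAction Γ E] {S : Sheets d E Γ}
variable {w : Fin S.N → Cm d → Matrix (Fin d) (Fin d) ℂ}

theorem mc_w (hk : Kah S w) (i : Fin S.N) {z : Cm d} (hz : z ∈ ball (0 : Cm d) 3) :
    MC ∞ (w i) z := fun j k => (hk.smooth i j k).contDiffAt (isOpen_ball.mem_nhds hz)

theorem det_ne (hk : Kah S w) (i : Fin S.N) {z : Cm d} (hz : z ∈ ball (0 : Cm d) 3) :
    (w i z).det ≠ 0 := (hk.posDef i z hz).det_pos.ne'

theorem sm_det (hk : Kah S w) (i : Fin S.N) {z : Cm d} (hz : z ∈ ball (0 : Cm d) 3) :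
    ContDiffAt ℝ ∞ (fun y => (w i y).det) z := (mc_w hk i hz).det

theorem sm_trc (hk : Kah S w) (i : Fin S.N) {z : Cm d} (hz : z ∈ ball (0 : Cm d) 3) :
    ContDiffAt ℝ ∞ (fun y => (w i y).trace) z := (mc_w hk i hz).trace

theorem sm_trc' (hk : Kah S w) (i : Fin S.N) {z : Cm d} (hz : z ∈ ball (0 : Cm d) 3) :
    ContDiffAt ℝ ∞ (fun y => ((w i y)⁻¹).trace) z :=
  ((mc_w hk i hz).inv (det_ne hk i hz)).trace

theorem sm_tw (hk : Kah S w) {α : Fin S.N → Cm d → L2 d} (h : Cl2 S α) (i : Fin S.N)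
    {z : Cm d} (hz : z ∈ ball (0 : Cm d) 3) :
    ContDiffAt ℝ ∞ (fun y => tw (w i y) (α i y)) z :=
  (((mc_w hk i hz).inv (det_ne hk i hz)).mul (mc_hm (h.smooth i z hz trivial))).trace

theorem sm_qq (hk : Kah S w) {u v : Cm d → Matrix (Fin d) (Fin d) ℂ} (i : Fin S.N)
    {z : Cm d} (hz : z ∈ ball (0 : Cm d) 3) (hu : MC ∞ u z) (hv : MC ∞ v z) :
    ContDiffAt ℝ ∞ (fun y => qq (w i y) (u y) (v y)) z := by
  have hi := (mc_w hk i hz).inv (det_ne hk i hz)
  have h1 := (sm_det hk i hz).mul (((hi.mul hu).mul (mc_T hi)).mul hv.conjTranspose).trace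
  exact Complex.reCLM.contDiff.contDiffAt.comp z h1

end

end Vale.Agent.P281.H624.HK
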