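import Vale.Agent.P281.H624.HK.Dec

/-!
# P281, project T-HK (helper624): potentials, integrals over the sheets, any dimension
-/

open Set Filter Metric MeasureTheory Vale.Agent.P272.K
open scoped Topology ContDiff ComplexConjugate ComplexOrder

noncomputable section

namespace Vale.Agent.P281.H624.HK

open Vale.Agent.P281.H64.TK Vale.Agent.P281.H64.TK.TS Vale.Agent.P272.K.C2
open Vale.Agent.P281.H83.HK Vale.Agent.P281.H624.TS

variable {d : ℕ}

/-- `d (v + conj v)` is real. -/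
theorem im_d1 {b : Cm d → Fin d → ℂ} {V : Set (Cm d)} {z : Cm d} (hV : IsOpen V) (hz : z ∈ V)
    (hb : ∀ k, ContDiffOn ℝ ∞ (fun y => b y k) V) (u v : Cm d) :
    (d1 (fun y => of1 (b y) (fun k => conj (b y k))) z u v).im = 0 := by
  have hc : ∀ k, ContDiffOn ℝ ∞ (fun y => conj (b y k)) V := fun k y hy =>
    (contDiffAt_conj ((hb k).contDiffAt (hV.mem_nhds hy))).contDiffWithinAt
  have fc : ∀ k u, fderiv ℝ (fun y => conj (b y k)) z u = conj (fderiv ℝ (fun y => b y k) z u) := by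
    intro k u
    have a : DifferentiableAt ℝ (fun y => b y k) z :=
      ((hb k).contDiffAt (hV.mem_nhds hz)).differentiableAt (by simp)
    have := ((Complex.conjCLE : ℂ →L[ℝ] ℂ).hasFDerivAt.comp z a.hasFDerivAt).fderiv
    exact congrArg (fun L : Cm d →L[ℝ] ℂ => L u) this
  have key : ∀ u v : Cm d, (fderiv ℝ (fun y => of1 (b y) (fun k => conj (b y k))) z u v).im = 0 := by
    intro u v
    rw [fd_of1 (p := b) (q := fun y k => conj (b y k)) hV hz hb hc]
    simp only [fc, Complex.im_sum, Complex.add_im, Complex.mul_im, Complex.conj_re,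
      Complex.conj_im]
    refine Finset.sum_eq_zero fun k _ => ?_
    ring
  rw [d1_apply, Complex.sub_im, key, key, sub_zero]

/-- `d ((i/2) ∂̄φ) = (i/2) ∂∂̄φ`. -/
theorem d1_phi {φ : Cm d → ℝ} {V : Set (Cm d)} {z : Cm d} (hV : IsOpen V) (hz : z ∈ V)
    (hφ : ∀ y ∈ V, ContDiffAt ℝ ∞ (fun y => (φ y : ℂ)) y) :
    d1 (fun y => of1 0 (fun k => Complex.I / 2 * dzb k (fun y => (φ y : ℂ)) y)) z =
      kf (cHess φ z) := by
  have h1 : ∀ k, ∀ y ∈ V, ContDiffAt ℝ ∞ (dzb k fun y => (φ y : ℂ)) y := fun k y hy =>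
    contDiffAt_dzb k (hφ y hy) (by simp)
  have hq : ∀ k, ContDiffOn ℝ ∞ (fun y => Complex.I / 2 * dzb k (fun y => (φ y : ℂ)) y) V :=
    fun k y hy => (contDiffAt_const.mul (h1 k y hy)).contDiffWithinAt
  have hp : ∀ k : Fin d, ContDiffOn ℝ ∞ (fun _ : Cm d => (0 : Fin d → ℂ) k) V := fun k =>
    contDiffOn_const
  have a : ∀ k, DifferentiableAt ℝ (dzb k fun y => (φ y : ℂ)) z := fun k =>
    (h1 k z hz).differentiableAt (by simp)
  have e1 : ∀ j k, dz j (fun y => Complex.I / 2 * dzb k (fun y => (φ y : ℂ)) y) z =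
      Complex.I / 2 * cHess φ z j k := fun j k => by
    rw [dz_const_mul _ _ (a k)]; rfl
  have e2 : ∀ j k, dzb j (fun y => Complex.I / 2 * dzb k (fun y => (φ y : ℂ)) y) z =
      Complex.I / 2 * dzb j (dzb k fun y => (φ y : ℂ)) z := fun j k => by
    rw [dzb_const_mul _ _ (a k)]
  have cm : ∀ j k, dzb j (dzb k fun y => (φ y : ℂ)) z = dzb k (dzb j fun y => (φ y : ℂ)) z :=
    fun j k => dzb_dzb_comm j k ((hφ z hz).of_le (by exact WithTop.coe_le_coe.2 le_top))
  have alt : ∀ u v, d1 (fun y => of1 0 (fun k => Complex.I / 2 *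
      dzb k (fun y => (φ y : ℂ)) y)) z u v = - d1 (fun y => of1 0 (fun k => Complex.I / 2 *
      dzb k (fun y => (φ y : ℂ)) y)) z v u := fun u v => by
    simp only [d1_apply]; ring
  ext u v
  rw [decomp alt u v, kf_apply, Finset.mul_sum]
  refine Finset.sum_congr rfl fun j _ => ?_
  rw [Finset.mul_sum]
  refine Finset.sum_congr rfl fun k _ => ?_
  rw [c20_d1 (p := fun _ => 0) hV hz hp hq, c11_d1 (p := fun _ => 0) hV hz hp hq,
    c02_d1 (p := fun _ => 0) hV hz hp hq, e1, e2, e2, cm j k]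
  have z1 : ∀ j l, dz j (fun _ : Cm d => (0 : Fin d → ℂ) l) z = 0 := fun j l =>
    dz_const j ((0 : Fin d → ℂ) l)
  have z2 : ∀ j l, dzb j (fun _ : Cm d => (0 : Fin d → ℂ) l) z = 0 := fun j l =>
    dzb_const j ((0 : Fin d → ℂ) l)
  rw [z1, z1, z2]
  ring

section
variable {E Γ : Type} [TopologicalSpace E] [Group Γ] [MulAction Γ E]

/-- The real 1-form `v + conj v` of a `(1,0)`-form `v`. -/
theorem f1_v {S : Sheets d E Γ} {b : Fin S.N → Cm d → Fin d → ℂ}
    (hb : ∀ i k, ContDiffOn ℝ ∞ (fun z => b i z k) (ball 0 3))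
    (hc : ∀ i j, ∀ z ∈ ball (0 : Cm d) 3, ∀ z' ∈ ball (0 : Cm d) 3, ∀ θ : Cm d → Cm d,
      AnalyticAt ℂ θ z → θ z = z' → (∀ᶠ u in 𝓝 z, S.σ i u = S.σ j (θ u)) →
        ∀ k, b i z k = ∑ l, b j z' l * jac θ z l k) :
    F1On S univ (fun i y => of1 (b i y) (fun k => conj (b i y k))) where
  smooth i z hz _ := by
    have h2 : ∀ k, ContDiffOn ℝ ∞ (fun y => conj (b i y k)) (ball 0 3) := fun k y hy =>
      (contDiffAt_conj ((hb i k).contDiffAt (isOpen_ball.mem_nhds hy))).contDiffWithinAt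
    exact (sm_of1 (p := b i) (q := fun y k => conj (b i y k)) (hb i) h2).contDiffAt
      (isOpen_ball.mem_nhds hz)
  change i j z hz z' hz' _ ψ hψ v := by
    obtain ⟨θ, t1, t2, t3, t4⟩ := tr_hol S hz hz' hψ
    rw [fd_mulVec t1 t4]
    have e1 : ∀ v : Cm d, ∑ k, b i z k * v k = ∑ l, b j z' l * (jac θ z).mulVec v l := by
      intro v
      simp only [hc i j z hz z' hz' θ t1 t2 t3, Matrix.mulVec, dotProduct, Finset.sum_mul,
        Finset.mul_sum]
      rw [Finset.sum_comm]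
      exact Finset.sum_congr rfl fun j _ => Finset.sum_congr rfl fun k _ => by ring
    have e2 : ∀ (i : Fin S.N) (z v : Cm d), of1 (b i z) (fun k => conj (b i z k)) v =
        ∑ k, b i z k * v k + conj (∑ k, b i z k * v k) := by
      intro i z v
      rw [of1_apply, map_sum, ← Finset.sum_add_distrib]
      exact Finset.sum_congr rfl fun k _ => by rw [map_mul]
    rw [e2, e2, e1]

/-- The 1-form `(i/2) ∂̄φ`. -/
theorem f1_phi {S : Sheets d E Γ} {φ : E → ℝ} (hφ : SmOn S univ (fun e => (φ e : ℂ))) :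
    F1On S univ (fun i y => of1 0 (fun k => Complex.I / 2 *
      dzb k (fun y => (φ (S.σ i y) : ℂ)) y)) where
  smooth i z hz _ := by
    have h1 : ∀ k, ContDiffOn ℝ ∞ (fun y => Complex.I / 2 *
        dzb k (fun y => (φ (S.σ i y) : ℂ)) y) (ball 0 3) := fun k y hy =>
      (contDiffAt_const.mul (contDiffAt_dzb k (hφ i y hy trivial)
        (by simp))).contDiffWithinAt
    have h2 : ∀ k : Fin d, ContDiffOn ℝ ∞ (fun _ : Cm d => (0 : Fin d → ℂ) k) (ball 0 3) :=
      fun k => contDiffOn_const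
    exact (sm_of1 (p := fun _ => 0) h2 h1).contDiffAt (isOpen_ball.mem_nhds hz)
  change i j z hz z' hz' _ ψ hψ v := by
    obtain ⟨θ, t1, t2, t3, t4⟩ := tr_hol S hz hz' hψ
    have e : ∀ (i : Fin S.N) (z v : Cm d), of1 0 (fun k => Complex.I / 2 *
        dzb k (fun y => (φ (S.σ i y) : ℂ)) z) v = Complex.I / 2 *
        ((fderiv ℝ (fun y => (φ (S.σ i y) : ℂ)) z v +
          Complex.I * fderiv ℝ (fun y => (φ (S.σ i y) : ℂ)) z (Complex.I • v)) / 2) := by
      intro i z v
      rw [← fd_dbar, Finset.mul_sum, of1_apply]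
      refine Finset.sum_congr rfl fun k _ => ?_
      simp only [Pi.zero_apply]
      ring
    have hj : DifferentiableAt ℝ (fun y => (φ (S.σ j y) : ℂ)) (θ z) := by
      rw [t2]; exact (hφ j z' hz' trivial).differentiableAt (by simp)
    have hθ : DifferentiableAt ℝ θ z := (t1.differentiableAt).restrictScalars ℝ
    have e2 : (fun y => (φ (S.σ i y) : ℂ)) =ᶠ[𝓝 z] fun y => (φ (S.σ j (θ y)) : ℂ) := by
      filter_upwards [t3] with y hy
      rw [hy]
    have e3 : ∀ v, fderiv ℝ (fun y => (φ (S.σ i y) : ℂ)) z v =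
        fderiv ℝ (fun y => (φ (S.σ j y) : ℂ)) z' (fderiv ℝ ψ z v) := by
      intro v
      rw [e2.fderiv_eq]
      have := (hj.hasFDerivAt.comp z hθ.hasFDerivAt).fderiv
      rw [t4.fderiv_eq]
      rw [t2] at this
      exact congrArg (fun L : Cm d →L[ℝ] ℂ => L v) this
    have e4 : fderiv ℝ ψ z (Complex.I • v) = Complex.I • fderiv ℝ ψ z v := by
      rw [t4.fderiv_eq, fd_real t1, fd_real t1, map_smul]
    rw [e, e, e3, e3, e4]

/-! ### Integrals -/

theorem P_sub (S : Sheets d E Γ) (i : Fin S.N) : S.P i ⊆ closedBall 0 1 := fun z hz => by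
  rw [mem_closedBall_zero_iff]; exact hz.1.le

theorem b13 : closedBall (0 : Cm d) 1 ⊆ ball 0 3 := closedBall_subset_ball (by norm_num)

theorem int_on (S : Sheets d E Γ) (i : Fin S.N) {F : Type} [NormedAddCommGroup F] {f : Cm d → F}
    (hf : ContinuousOn f (ball 0 3)) : IntegrableOn f (S.P i) :=
  ((hf.mono b13).integrableOn_compact (isCompact_closedBall _ _)).mono_set (P_sub S i)

theorem ae_P (S : Sheets d E Γ) (i : Fin S.N) {p : Cm d → Prop}
    (h : ∀ z ∈ ball (0 : Cm d) 3, p z) : ∀ᵐ z ∂(volume.restrict (S.P i)), p z :=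
  ae_restrict_of_ae_restrict_of_subset (P_sub S i)
    (ae_restrict_of_forall_mem measurableSet_closedBall fun z hz => h z (b13 hz))

theorem ae_P' (S : Sheets d E Γ) (i : Fin S.N) {p : Cm d → Prop}
    (h : ∀ z ∈ closedBall (0 : Cm d) 1, p z) : ∀ᵐ z ∂(volume.restrict (S.P i)), p z :=
  ae_restrict_of_ae_restrict_of_subset (P_sub S i)
    (ae_restrict_of_forall_mem measurableSet_closedBall fun z hz => h z hz)

/-- The integral of a real density. -/
def rI (S : Sheets d E Γ) (f : Fin S.N → Cm d → ℝ) : ℝ := ∑ i, ∫ z in S.P i, f i z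

theorem rI_congr {S : Sheets d E Γ} {f g : Fin S.N → Cm d → ℝ}
    (h : ∀ i, ∀ z ∈ ball (0 : Cm d) 3, f i z = g i z) : rI S f = rI S g :=
  Finset.sum_congr rfl fun i _ => integral_congr_ae (ae_P S i (h i))

theorem rI_add {S : Sheets d E Γ} {f g : Fin S.N → Cm d → ℝ}
    (hf : ∀ i, ContinuousOn (f i) (ball 0 3)) (hg : ∀ i, ContinuousOn (g i) (ball 0 3)) :
    rI S (fun i z => f i z + g i z) = rI S f + rI S g := by
  simp only [rI]
  rw [← Finset.sum_add_distrib]
  exact Finset.sum_congr rfl fun i _ => integral_add (int_on S i (hf i)) (int_on S i (hg i))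

theorem rI_mul {S : Sheets d E Γ} {f : Fin S.N → Cm d → ℝ} (c : ℝ) :
    rI S (fun i z => c * f i z) = c * rI S f := by
  simp only [rI, Finset.mul_sum]
  exact Finset.sum_congr rfl fun i _ => integral_const_mul _ _

theorem rI_mono {S : Sheets d E Γ} {f g : Fin S.N → Cm d → ℝ}
    (hf : ∀ i, ContinuousOn (f i) (ball 0 3)) (hg : ∀ i, ContinuousOn (g i) (ball 0 3))
    (h : ∀ i, ∀ z ∈ closedBall (0 : Cm d) 1, f i z ≤ g i z) : rI S f ≤ rI S g :=
  Finset.sum_le_sum fun i _ => integral_mono_ae (int_on S i (hf i)) (int_on S i (hg i))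
    (ae_P' S i (h i))

theorem int_re {S : Sheets d E Γ} {D : Fin S.N → Cm d → ℂ}
    (hD : ∀ i, ContinuousOn (D i) (ball 0 3)) : (S.int D).re = rI S (fun i z => (D i z).re) := by
  simp only [Sheets.int, rI, Complex.re_sum]
  refine Finset.sum_congr rfl fun i _ => ?_
  exact (Complex.reCLM.integral_comp_comm (int_on S i (hD i))).symm

theorem int_congr {S : Sheets d E Γ} {D D' : Fin S.N → Cm d → ℂ}
    (h : ∀ i, ∀ z ∈ ball (0 : Cm d) 3, D i z = D' i z) : S.int D = S.int D' :=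
  Finset.sum_congr rfl fun i _ => integral_congr_ae (ae_P S i (h i))

theorem int_add {S : Sheets d E Γ} {D D' : Fin S.N → Cm d → ℂ}
    (hD : ∀ i, ContinuousOn (D i) (ball 0 3)) (hD' : ∀ i, ContinuousOn (D' i) (ball 0 3)) :
    S.int (fun i z => D i z + D' i z) = S.int D + S.int D' := by
  simp only [Sheets.int]
  rw [← Finset.sum_add_distrib]
  exact Finset.sum_congr rfl fun i _ => integral_add (int_on S i (hD i)) (int_on S i (hD' i))

theorem int_sub {S : Sheets d E Γ} {D D' : Fin S.N → Cm d → ℂ}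
    (hD : ∀ i, ContinuousOn (D i) (ball 0 3)) (hD' : ∀ i, ContinuousOn (D' i) (ball 0 3)) :
    S.int (fun i z => D i z - D' i z) = S.int D - S.int D' := by
  simp only [Sheets.int]
  rw [← Finset.sum_sub_distrib]
  exact Finset.sum_congr rfl fun i _ => integral_sub (int_on S i (hD i)) (int_on S i (hD' i))

theorem int_mul {S : Sheets d E Γ} {D : Fin S.N → Cm d → ℂ} (c : ℂ) :
    S.int (fun i z => c * D i z) = c * S.int D := by
  simp only [Sheets.int, Finset.mul_sum]
  exact Finset.sum_congr rfl fun i _ => integral_const_mul _ _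

theorem cont_of {F : Type} [NormedAddCommGroup F] [NormedSpace ℝ F] {f : Cm d → F}
    (h : ∀ z ∈ ball (0 : Cm d) 3, ContDiffAt ℝ ∞ f z) : ContinuousOn f (ball 0 3) :=
  fun z hz => (h z hz).continuousAt.continuousWithinAt

end

end Vale.Agent.P281.H624.HK
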